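import Vale.Agent.P011.H305.SetF
import Vale.Agent.P011.H63.FBase

/-!
The centralizer of a symmetric square root: the letters, for arbitrary fields.
-/

open Module

set_option linter.unusedSectionVars false

namespace Vale.Agent.P011.H872.FF

open Vale.Agent.P011.H305
open Vale.Agent.P011.H63.FB (incF)

/-- The symmetric square roots of `a`. -/
def XaF {k : Type} (D : Type) [Field k] [Ring D] [StarRing D] [Algebra k D] (a : kˣ) : Set D :=
  {t | star t = t ∧ t * t = algebraMap k D a}

/-- `C` is the centralizer of `t` in `D` (by means of `j`), `L = k(t)` and `K' = K(t)`. -/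
structure IsCentF (k K D L K' C : Type) [Field k] [Field K] [DivisionRing D] [StarRing D]
    [Algebra k K] [Algebra k D] [Algebra K D] [Field L] [Field K'] [DivisionRing C] [StarRing C]
    [Algebra k L] [Algebra K K'] [Algebra L K'] [Algebra L C] [Algebra K' C]
    (t : D) (a : kˣ) (T : L) (j : C →+* D) : Prop where
  rkL : finrank k L = 2
  rkK : finrank K K' = 2
  sqT : T * T = algebraMap k L a
  repL : ∀ l : L, ∃ u v : k, l = algebraMap k L u + algebraMap k L v * T
  repK : ∀ l : K', ∃ u v : K, l = algebraMap K K' u + algebraMap K K' v * algebraMap L K' T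
  comp : ∀ c : k, algebraMap K K' (algebraMap k K c) = algebraMap L K' (algebraMap k L c)
  inj : Function.Injective j
  star : ∀ x, j (star x) = star (j x)
  range : ∀ y, y * t = t * y ↔ ∃ x, j x = y
  jT : j (algebraMap L C T) = t
  jK : ∀ c : K, j (algebraMap K' C (algebraMap K K' c)) = algebraMap K D c

section basic

variable {k K D L K' C : Type} [Field k] [Field K] [DivisionRing D] [StarRing D]
    [Algebra k K] [Algebra k D] [Algebra K D] [Field L] [Field K'] [DivisionRing C] [StarRing C]
    [Algebra k L] [Algebra K K'] [Algebra L K'] [Algebra L C] [Algebra K' C]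
    [IsScalarTower k K D] [IsScalarTower L K' C]
    {t : D} {a : kˣ} {T : L} {j : C →+* D}

theorem IsCentF.jk (h : IsCentF k K D L K' C t a T j) (c : k) :
    j (algebraMap L C (algebraMap k L c)) = algebraMap k D c := by
  rw [IsScalarTower.algebraMap_apply L K' C, ← h.comp, h.jK, ← IsScalarTower.algebraMap_apply]

theorem IsCentF.comm (h : IsCentF k K D L K' C t a T j) (x : C) : j x * t = t * j x :=
  (h.range _).mpr ⟨x, rfl⟩

theorem IsCentF.sq (h : IsCentF k K D L K' C t a T j) : t * t = algebraMap k D a := by
  rw [← h.jT, ← map_mul, ← map_mul, h.sqT, h.jk]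

end basic

section letters

variable {k K D L K' C : Type} [Field k] [Field K] [StarRing K]
    [DivisionRing D] [StarRing D] [Algebra k K] [Algebra k D] [Algebra K D] [IsScalarTower k K D]
    [Field L] [Algebra k L] [Field K'] [StarRing K']
    [Algebra K K'] [DivisionRing C] [StarRing C] [Algebra L K'] [Algebra L C] [Algebra K' C]
    [IsScalarTower L K' C] {d : kˣ} {s : K} {t : D} {a : kˣ} {T : L} {j : C →+* D}

/-- The product of the two square roots. -/
def om (K' : Type) [Field K'] [Algebra K K'] [Algebra L K'] (s : K) (T : L) : K' :=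
  algebraMap K K' s * algebraMap L K' T

/-- The image of the base field. -/
def kk (k K K' : Type) [Field k] [Field K] [Field K'] [Algebra k K] [Algebra K K'] : k →+* K' :=
  (algebraMap K K').comp (algebraMap k K)

theorem star_algF (hS : SetF k K D d s) (c : K) :
    star (algebraMap K D c) = algebraMap K D (star c) := by
  rw [Algebra.algebraMap_eq_smul_one, hS.star_smul, star_one, ← Algebra.algebraMap_eq_smul_one]

theorem two_neK (hS : SetF k K D d s) : (2 : K) ≠ 0 := by
  rw [← map_ofNat (algebraMap k K) 2]
  exact (_root_.map_ne_zero _).mpr hS.two_ne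

theorem two_neD (hS : SetF k K D d s) : (2 : D) ≠ 0 := by
  rw [← map_ofNat (algebraMap k D) 2]
  exact (_root_.map_ne_zero _).mpr hS.two_ne

theorem three_neK (h3 : (3 : k) ≠ 0) : (3 : K) ≠ 0 := by
  rw [← map_ofNat (algebraMap k K) 3]
  exact (_root_.map_ne_zero _).mpr h3

theorem om_sq (hS : SetF k K D d s) (h : IsCentF k K D L K' C t a T j) :
    om K' s T * om K' s T = kk k K K' (a * d) := by
  rw [om]
  calc _ = algebraMap K K' (s ^ 2) * algebraMap L K' (T * T) := by
        rw [map_pow, map_mul]; ring
    _ = _ := by
      rw [hS.sq, h.sqT, ← h.comp, mul_comm]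
      exact (map_mul (kk k K K') _ _).symm

theorem star_kk (hSC : SetF L K' C (incF k L d) (algebraMap K K' s))
    (h : IsCentF k K D L K' C t a T j) (c : k) : star (kk k K K' c) = kk k K K' c := by
  rw [hSC.fix]
  exact ⟨algebraMap k L c, (h.comp c).symm⟩

theorem star_om (hSC : SetF L K' C (incF k L d) (algebraMap K K' s)) :
    star (om K' s T) = -om K' s T := by
  rw [om, star_mul, hSC.star_s, (hSC.fix _).mpr ⟨T, rfl⟩]
  ring

end letters

end Vale.Agent.P011.H872.FF
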