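import Vale.Agent.P011.H359.PenD

/-!
Pencils of squares in characteristic different from two and three: the resultants.
-/

open Polynomial

set_option linter.unusedSectionVars false

namespace Vale.Agent.P011.H872.FF

open Vale.Agent.P011.H359 (sp res_ne Cop pwr PE1 PE2 PE3 pwr_eval coeff_mul_top)

section cube

variable {Ω : Type} [Field Ω]

/-- A cubic polynomial with `e₁² = 3 e₂` and `e₁ e₂ = 9 e₃` has a triple root. -/
theorem triple (h3 : (3 : Ω) ≠ 0) {a b c : Ω} (h1 : (a + b + c) ^ 2 = 3 * (a * b + a * c + b * c))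
    (h2 : (a + b + c) * (a * b + a * c + b * c) = 9 * (a * b * c)) : a = b ∧ a = c := by
  have ka : (3 * a - (a + b + c)) ^ 3 = 0 := by
    linear_combination (9 * a - (a + b + c)) * h1 - 3 * h2
  have kb : (3 * b - (a + b + c)) ^ 3 = 0 := by
    linear_combination (9 * b - (a + b + c)) * h1 - 3 * h2
  have kc : (3 * c - (a + b + c)) ^ 3 = 0 := by
    linear_combination (9 * c - (a + b + c)) * h1 - 3 * h2
  have ea := pow_eq_zero_iff (n := 3) (by norm_num) |>.mp ka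
  have eb := pow_eq_zero_iff (n := 3) (by norm_num) |>.mp kb
  have ec := pow_eq_zero_iff (n := 3) (by norm_num) |>.mp kc
  exact ⟨mul_left_cancel₀ h3 (by linear_combination ea - eb),
    mul_left_cancel₀ h3 (by linear_combination ea - ec)⟩

/-- The three numbers `(1 + b r)² r` are not equal. -/
theorem deg_aux {b x y z l : Ω} (hxy : x ≠ y) (hxz : x ≠ z) (hyz : y ≠ z)
    (hx : (1 + b * x) ^ 2 * x = l) (hy : (1 + b * y) ^ 2 * y = l) (hz : (1 + b * z) ^ 2 * z = l) :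
    (x + y + z) ^ 2 = 4 * (x * y + x * z + y * z) ∧ b ≠ 0 := by
  have e1 : b ^ 2 * (x ^ 2 + x * y + y ^ 2) + 2 * b * (x + y) + 1 = 0 := by
    apply mul_left_cancel₀ (sub_ne_zero.mpr hxy)
    linear_combination hx - hy
  have e2 : b ^ 2 * (x ^ 2 + x * z + z ^ 2) + 2 * b * (x + z) + 1 = 0 := by
    apply mul_left_cancel₀ (sub_ne_zero.mpr hxz)
    linear_combination hx - hz
  have e3 : b * (b * (x + y + z) + 2) = 0 := by
    apply mul_left_cancel₀ (sub_ne_zero.mpr hyz)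
    linear_combination e1 - e2
  have hb : b ≠ 0 := by
    rintro rfl
    simp at e1
  refine ⟨?_, hb⟩
  have e4 : b * (x + y + z) = -2 := by
    have := (mul_eq_zero.mp e3).resolve_left hb
    linear_combination this
  have e5 : b ^ 2 * (x * y + x * z + y * z) = 1 := by
    linear_combination (-1 : Ω) * e1 + (b * (x + y + z) - b * z) * e4
  apply mul_left_cancel₀ (pow_ne_zero 2 hb)
  linear_combination (b * (x + y + z) - 2) * e4 - 4 * e5

end cube

section degen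

variable {k Ω : Type} [Field k] [Field Ω] [Algebra k Ω]

theorem sp_eval (r z : Ω) : (sp r).eval z = (1 + 4 * z * r) ^ 2 * r := by
  rw [sp]
  simp only [eval_mul, eval_C, eval_pow, eval_add, eval_one, eval_X]
  ring

theorem sp_deg (r : Ω) : (sp r).natDegree ≤ 2 := by
  rw [sp]
  refine (natDegree_C_mul_le _ _).trans ((natDegree_pow_le).trans ?_)
  have : (1 + C (4 * r) * X : Ω[X]).natDegree ≤ 1 := by
    refine (natDegree_add_le _ _).trans (max_le (by simp) ?_)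
    exact (natDegree_C_mul_le _ _).trans natDegree_X_le
  omega

theorem sp_coeff (r : Ω) : (sp r).coeff 2 = 16 * r ^ 3 := by
  rw [sp, coeff_C_mul]
  have h1 : (1 + C (4 * r) * X : Ω[X]) ^ 2 = 1 + C (8 * r) * X + C (16 * r ^ 2) * X ^ 2 := by
    rw [add_sq, mul_pow, ← C_pow, one_pow, mul_one, ← mul_assoc]
    have e1 : (2 : Ω[X]) * C (4 * r) = C (8 * r) := by
      rw [show (2 : Ω[X]) = C 2 from rfl, ← C_mul]
      congr 1
      ring
    have e2 : (4 * r) ^ 2 = 16 * r ^ 2 := by ring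
    rw [e1, e2]
  rw [h1]
  simp only [coeff_add, coeff_C_mul, coeff_X_pow, coeff_one, coeff_X]
  norm_num
  ring

/-- **The pencil `(j, 4 j³)` has nonzero resultants.** -/
theorem deg_res [IsAlgClosed Ω] (h2Ω : (2 : Ω) ≠ 0) (h3Ω : (3 : Ω) ≠ 0) {r0 r1 r2 : Ω} (h01 : r0 ≠ r1) (h02 : r0 ≠ r2) (h12 : r1 ≠ r2)
    (hr0 : r0 ≠ 0) (hr1 : r1 ≠ 0) (hr2 : r2 ≠ 0)
    (hne : (r0 + r1 + r2) ^ 2 ≠ 4 * (r0 * r1 + r0 * r2 + r1 * r2)) {E1 E2 E3 : k[X]}
    (h1 : E1.map (algebraMap k Ω) = sp r0 + sp r1 + sp r2)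
    (h2 : E2.map (algebraMap k Ω) = sp r0 * sp r1 + sp r0 * sp r2 + sp r1 * sp r2)
    (h3 : E3.map (algebraMap k Ω) = sp r0 * sp r1 * sp r2) :
    resultant (E1 ^ 2 - 3 * E2) (E1 * E2 - 9 * E3) 4 6 ≠ 0 ∧ resultant E2 E3 4 6 ≠ 0 := by
  set φ := algebraMap k Ω with hφ
  have d0 := sp_deg r0
  have d1 := sp_deg r1
  have d2 := sp_deg r2
  have dd1 : (sp r0 + sp r1 + sp r2).natDegree ≤ 2 :=
    (natDegree_add_le _ _).trans (max_le ((natDegree_add_le _ _).trans (max_le d0 d1)) d2)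
  have hm : ∀ {f g : Ω[X]} {a b : ℕ}, f.natDegree ≤ a → g.natDegree ≤ b →
      (f * g).natDegree ≤ a + b := fun hf hg => natDegree_mul_le_of_le hf hg
  have dd2 : (sp r0 * sp r1 + sp r0 * sp r2 + sp r1 * sp r2).natDegree ≤ 4 :=
    (natDegree_add_le _ _).trans (max_le ((natDegree_add_le _ _).trans
      (max_le (hm d0 d1) (hm d0 d2))) (hm d1 d2))
  have dd3 : (sp r0 * sp r1 * sp r2).natDegree ≤ 6 := hm (hm d0 d1) d2
  have hn3 : ∀ {f : Ω[X]} {a : ℕ} (c : ℕ), f.natDegree ≤ a → ((c : Ω[X]) * f).natDegree ≤ a := by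
    intro f a c hf
    have := hm (f := (c : Ω[X])) (a := 0) (by rw [natDegree_natCast]) hf
    rwa [zero_add] at this
  have c0 := sp_coeff r0
  have c1 := sp_coeff r1
  have c2 := sp_coeff r2
  have cc1 : (sp r0 + sp r1 + sp r2).coeff 2 = 16 * (r0 ^ 3 + r1 ^ 3 + r2 ^ 3) := by
    rw [coeff_add, coeff_add, c0, c1, c2]
    ring
  have cc2 : (sp r0 * sp r1 + sp r0 * sp r2 + sp r1 * sp r2).coeff 4 =
      256 * (r0 ^ 3 * r1 ^ 3 + r0 ^ 3 * r2 ^ 3 + r1 ^ 3 * r2 ^ 3) := by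
    rw [coeff_add, coeff_add, show (4 : ℕ) = 2 + 2 from rfl, coeff_mul_top d0 d1,
      coeff_mul_top d0 d2, coeff_mul_top d1 d2, c0, c1, c2]
    ring
  have cc3 : (sp r0 * sp r1 * sp r2).coeff 6 = 4096 * (r0 ^ 3 * r1 ^ 3 * r2 ^ 3) := by
    rw [show (6 : ℕ) = 2 + 2 + 2 from rfl, coeff_mul_top (hm d0 d1) d2, coeff_mul_top d0 d1, c0, c1,
      c2]
    ring
  have key : ∀ z : Ω, ∀ a b c : Ω, a = (1 + 4 * z * r0) ^ 2 * r0 → b = (1 + 4 * z * r1) ^ 2 * r1 →
      c = (1 + 4 * z * r2) ^ 2 * r2 → ¬ (a = b ∧ a = c) := by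
    rintro z a b c ha hb hc ⟨hab, hac⟩
    exact hne (deg_aux (l := a) h01 h02 h12 ha.symm (by rw [hab, hb]) (by rw [hac, hc])).1
  constructor
  · rw [← (algebraMap k Ω).injective.ne_iff, map_zero, ← resultant_map_map]
    have hP : (E1 ^ 2 - 3 * E2).map φ = (E1.map φ) ^ 2 - 3 * E2.map φ := by
      rw [Polynomial.map_sub, Polynomial.map_pow, Polynomial.map_mul, Polynomial.map_ofNat]
    have hR : (E1 * E2 - 9 * E3).map φ = E1.map φ * E2.map φ - 9 * E3.map φ := by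
      rw [Polynomial.map_sub, Polynomial.map_mul, Polynomial.map_mul, Polynomial.map_ofNat]
    rw [← hφ, hP, hR, h1, h2, h3]
    refine res_ne ?_ ?_ ?_ ?_
    · refine (natDegree_sub_le _ _).trans (max_le ?_ ?_)
      · rw [pow_two]
        exact hm dd1 dd1
      · exact hn3 3 dd2
    · refine (natDegree_sub_le _ _).trans (max_le ?_ ?_)
      · exact hm dd1 dd2
      · exact hn3 9 dd3
    · rintro z ⟨hz1, hz2⟩
      simp only [eval_sub, eval_mul, eval_pow, eval_add, sp_eval, eval_ofNat] at hz1 hz2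
      refine key z _ _ _ rfl rfl rfl (triple h3Ω ?_ ?_)
      · linear_combination hz1
      · linear_combination hz2
    · rintro ⟨hz1, hz2⟩
      have e1 : ((sp r0 + sp r1 + sp r2) ^ 2).coeff 4 = (16 * (r0 ^ 3 + r1 ^ 3 + r2 ^ 3)) ^ 2 := by
        rw [pow_two, show (4 : ℕ) = 2 + 2 from rfl, coeff_mul_top dd1 dd1, cc1]
        ring
      have e2 : ((sp r0 + sp r1 + sp r2) * (sp r0 * sp r1 + sp r0 * sp r2 + sp r1 * sp r2)).coeff 6 =
          16 * (r0 ^ 3 + r1 ^ 3 + r2 ^ 3) *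
            (256 * (r0 ^ 3 * r1 ^ 3 + r0 ^ 3 * r2 ^ 3 + r1 ^ 3 * r2 ^ 3)) := by
        rw [show (6 : ℕ) = 2 + 4 from rfl, coeff_mul_top dd1 dd2, cc1, cc2]
      have e3 : ∀ (f : Ω[X]) (i : ℕ), ((3 : Ω[X]) * f).coeff i = 3 * f.coeff i := fun f i => by
        rw [show (3 : Ω[X]) = C 3 from rfl, coeff_C_mul]
      have e4 : ∀ (f : Ω[X]) (i : ℕ), ((9 : Ω[X]) * f).coeff i = 9 * f.coeff i := fun f i => by
        rw [show (9 : Ω[X]) = C 9 from rfl, coeff_C_mul]
      rw [coeff_sub, e1, e3, cc2] at hz1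
      rw [coeff_sub, e2, e4, cc3] at hz2
      have h256 : (256 : Ω) ≠ 0 := by
        rw [show (256 : Ω) = 2 ^ 8 by norm_num]
        exact pow_ne_zero 8 h2Ω
      have h4096 : (4096 : Ω) ≠ 0 := by
        rw [show (4096 : Ω) = 2 ^ 12 by norm_num]
        exact pow_ne_zero 12 h2Ω
      obtain ⟨g1, g2⟩ := triple h3Ω (a := r0 ^ 3) (b := r1 ^ 3) (c := r2 ^ 3)
        (mul_left_cancel₀ h256 (by linear_combination hz1))
        (mul_left_cancel₀ h4096 (by linear_combination hz2))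
      -- the cubes are equal
      have q1 : r0 ^ 2 + r0 * r1 + r1 ^ 2 = 0 :=
        mul_left_cancel₀ (sub_ne_zero.mpr h01) (by linear_combination g1)
      have q2 : r0 ^ 2 + r0 * r2 + r2 ^ 2 = 0 :=
        mul_left_cancel₀ (sub_ne_zero.mpr h02) (by linear_combination g2)
      have q3 : r0 + r1 + r2 = 0 :=
        mul_left_cancel₀ (sub_ne_zero.mpr h12) (by linear_combination q1 - q2)
      apply hne
      linear_combination (r0 + r1 + r2 - 4 * (r0 + r1)) * q3 + 4 * q1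
  · rw [← (algebraMap k Ω).injective.ne_iff, map_zero, ← resultant_map_map, h2, h3]
    refine res_ne dd2 dd3 ?_ ?_
    · rintro z ⟨hz1, hz2⟩
      simp only [eval_mul, eval_add, sp_eval] at hz1 hz2
      have h4 : ∀ {r s : Ω}, r ≠ 0 → s ≠ 0 → (1 + 4 * z * r) ^ 2 * r = 0 →
          (1 + 4 * z * s) ^ 2 * s = 0 → r = s := by
        intro r s hr hs e1 e2
        have f1 : 1 + 4 * z * r = 0 := pow_eq_zero_iff (n := 2) (by norm_num) |>.mp
          ((mul_eq_zero.mp e1).resolve_right hr)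
        have f2 : 1 + 4 * z * s = 0 := pow_eq_zero_iff (n := 2) (by norm_num) |>.mp
          ((mul_eq_zero.mp e2).resolve_right hs)
        have hz : 4 * z ≠ 0 := by
          intro h
          rw [h] at f1
          simp at f1
        apply mul_left_cancel₀ hz
        linear_combination f1 - f2
      obtain ⟨a, ha⟩ : ∃ a, a = (1 + 4 * z * r0) ^ 2 * r0 := ⟨_, rfl⟩
      obtain ⟨b, hb⟩ : ∃ b, b = (1 + 4 * z * r1) ^ 2 * r1 := ⟨_, rfl⟩
      obtain ⟨c, hc⟩ : ∃ c, c = (1 + 4 * z * r2) ^ 2 * r2 := ⟨_, rfl⟩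
      have k01 : ¬ (a = 0 ∧ b = 0) := fun h => h01 (h4 hr0 hr1 (ha ▸ h.1) (hb ▸ h.2))
      have k02 : ¬ (a = 0 ∧ c = 0) := fun h => h02 (h4 hr0 hr2 (ha ▸ h.1) (hc ▸ h.2))
      have k12 : ¬ (b = 0 ∧ c = 0) := fun h => h12 (h4 hr1 hr2 (hb ▸ h.1) (hc ▸ h.2))
      rw [← ha, ← hb, ← hc] at hz1 hz2
      rcases mul_eq_zero.mp hz2 with h | h
      · rcases mul_eq_zero.mp h with h | h
        · rw [h, zero_mul, zero_mul, zero_add, zero_add] at hz1
          rcases mul_eq_zero.mp hz1 with h' | h'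
          · exact k01 ⟨h, h'⟩
          · exact k02 ⟨h, h'⟩
        · rw [h, mul_zero, zero_mul, zero_add, add_zero] at hz1
          rcases mul_eq_zero.mp hz1 with h' | h'
          · exact k01 ⟨h', h⟩
          · exact k12 ⟨h, h'⟩
      · rw [h, mul_zero, mul_zero, add_zero, add_zero] at hz1
        rcases mul_eq_zero.mp hz1 with h' | h'
        · exact k02 ⟨h', h⟩
        · exact k12 ⟨h', h⟩
    · rintro ⟨-, hz2⟩
      rw [cc3] at hz2
      have : (4096 : Ω) ≠ 0 := by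
        rw [show (4096 : Ω) = 2 ^ 12 by norm_num]
        exact pow_ne_zero 12 h2Ω
      exact absurd hz2 (mul_ne_zero this (mul_ne_zero (mul_ne_zero (pow_ne_zero _ hr0)
        (pow_ne_zero _ hr1)) (pow_ne_zero _ hr2)))

end degen

end Vale.Agent.P011.H872.FF
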