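import Vale.Agent.P011.H359.Semi
import Vale.Agent.P011.H872.FF.PenF

/-!
Power sums and the pencil polynomials, for arbitrary fields.
-/

open Module Polynomial

set_option linter.unusedSectionVars false

namespace Vale.Agent.P011.H872.FF

open Vale.Agent.P011.H775 (Cub)
open Vale.Agent.P011.H359 (sp Cop pwr PE1 PE2 PE3 pwr_eval PE1_natDegree PE2_natDegree
  PE3_natDegree cop_of_res)

section newton

variable {K D : Type} [Field K] [Ring D] [Algebra K D] (C : Cub K D)

theorem two_S (x : D) : 2 * C.S x = C.T x ^ 2 - C.T (x * x) := by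
  have h1 := congrArg C.T (C.adj_eq x)
  rw [map_add, map_sub, map_smul, map_smul, C.T_one, smul_eq_mul, smul_eq_mul] at h1
  change C.S x = _ at h1
  linear_combination (-1 : K) * h1

theorem T_cube (x : D) :
    C.T (x * x * x) = C.T x * C.T (x * x) - C.S x * C.T x + 3 * C.N x := by
  have h1 := congrArg C.T (C.cayley x)
  simp only [map_add, map_sub, map_smul, C.T_one, smul_eq_mul, map_zero] at h1
  linear_combination h1

theorem six_N (x : D) :
    6 * C.N x = C.T x ^ 3 - 3 * C.T x * C.T (x * x) + 2 * C.T (x * x * x) := by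
  have h1 := T_cube C x
  have h2 := two_S C x
  linear_combination (-2 : K) * h1 + C.T x * h2

/-- The recursion of the power sums. -/
theorem T_pow_succ (x : D) (n : ℕ) :
    C.T (x ^ (n + 3)) = C.T x * C.T (x ^ (n + 2)) - C.S x * C.T (x ^ (n + 1)) +
      C.N x * C.T (x ^ n) := by
  have h1 := congrArg (fun y => C.T (y * x ^ n)) (C.cayley x)
  simp only [sub_mul, add_mul, smul_mul_assoc, one_mul, zero_mul, map_sub, map_add, map_smul,
    smul_eq_mul, map_zero] at h1
  have e1 : x * x * x * x ^ n = x ^ (n + 3) := by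
    rw [pow_succ', pow_succ', pow_succ', mul_assoc, mul_assoc]
  have e2 : x * x * x ^ n = x ^ (n + 2) := by
    rw [pow_succ', pow_succ', mul_assoc]
  have e3 : x * x ^ n = x ^ (n + 1) := by
    rw [pow_succ']
  rw [e1, e2, e3] at h1
  linear_combination h1

/-- The power sums. -/
theorem T_pow_eq {Ω : Type} [Field Ω] (φ : K →+* Ω) (x : D) {r0 r1 r2 : Ω}
    (h1 : φ (C.T x) = r0 + r1 + r2) (h2 : φ (C.S x) = r0 * r1 + r0 * r2 + r1 * r2)
    (h3 : φ (C.N x) = r0 * r1 * r2) (n : ℕ) : φ (C.T (x ^ n)) = r0 ^ n + r1 ^ n + r2 ^ n := by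
  induction n using Nat.strong_induction_on with
  | _ n ih =>
    match n, ih with
    | 0, _ =>
      rw [pow_zero, C.T_one, pow_zero, pow_zero, pow_zero, map_ofNat]
      norm_num
    | 1, _ => rw [pow_one, pow_one, pow_one, pow_one, h1]
    | 2, _ =>
      have e1 := congrArg φ (two_S C x)
      rw [map_mul, map_sub, map_pow, h1, h2, map_ofNat] at e1
      rw [pow_two]
      linear_combination e1
    | m + 3, ih =>
      have e1 := congrArg φ (T_pow_succ C x m)
      rw [map_add, map_sub, map_mul, map_mul, map_mul, h1, h2, h3, ih (m + 2) (by omega),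
        ih (m + 1) (by omega), ih m (by omega)] at e1
      rw [e1]
      ring

end newton

section pen

variable {k D : Type} [Field k] [Ring D] [Algebra k D]

theorem natDegree_ofNat_mul_le {f : k[X]} {n : ℕ} (c : ℕ) (hf : f.natDegree ≤ n) :
    ((c : k[X]) * f).natDegree ≤ n := by
  refine natDegree_mul_le.trans ?_
  rw [natDegree_natCast, zero_add]
  exact hf

theorem cop_of_Cop {tr : D →ₗ[k] k} {x y : D} (h : Cop tr x y) :
    IsCoprime (PE1 tr x y ^ 2 - 3 * PE2 tr x y) (PE1 tr x y * PE2 tr x y - 9 * PE3 tr x y) ∧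
      IsCoprime (PE2 tr x y) (PE3 tr x y) := by
  have d1 := PE1_natDegree tr x y
  have d2 := PE2_natDegree tr x y
  have d3 := PE3_natDegree tr x y
  refine ⟨cop_of_res ?_ ?_ (by norm_num) h.1, cop_of_res d2 d3 (by norm_num) h.2⟩
  · refine (natDegree_sub_le _ _).trans (max_le ?_ ?_)
    · refine natDegree_pow_le.trans ?_
      omega
    · exact natDegree_ofNat_mul_le 3 d2
  · refine (natDegree_sub_le _ _).trans (max_le ?_ ?_)
    · refine natDegree_mul_le.trans ?_
      omega
    · exact natDegree_ofNat_mul_le 9 d3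

theorem smul_flip {x y : D} {T : k} (hT : T ≠ 0) : x + T • y = T • (y + T⁻¹ • x) := by
  rw [smul_add, smul_smul, mul_inv_cancel₀ hT, one_smul, add_comm]

theorem pwr_flip (tr : D →ₗ[k] k) (x y : D) (n : ℕ) {T : k} (hT : T ≠ 0) :
    (pwr tr x y n).eval T = T ^ n * (pwr tr y x n).eval T⁻¹ := by
  rw [pwr_eval, pwr_eval, smul_flip hT, _root_.smul_pow, map_smul, smul_eq_mul]

theorem PE3_flip (tr : D →ₗ[k] k) (x y : D) {T : k} (hT : T ≠ 0) :
    (PE3 tr x y).eval T = T ^ 6 * (PE3 tr y x).eval T⁻¹ := by
  simp only [PE3, PE1, eval_mul, eval_C, eval_add, eval_sub, eval_pow, eval_ofNat,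
    pwr_flip tr x y _ hT]
  ring

theorem PE_zero (tr : D →ₗ[k] k) (T : k) {x y : D} (h : x + T • y = 0) :
    (PE1 tr x y).eval T = 0 ∧ (PE2 tr x y).eval T = 0 ∧ (PE3 tr x y).eval T = 0 := by
  have h1 : ∀ n : ℕ, n ≠ 0 → (pwr tr x y n).eval T = 0 := fun n hn => by
    rw [pwr_eval, h, zero_pow hn, map_zero]
  refine ⟨h1 2 (by norm_num), ?_, ?_⟩
  · simp only [PE2, PE1, eval_mul, eval_sub, eval_pow, h1 2 (by norm_num), h1 4 (by norm_num)]
    ring
  · simp only [PE3, PE1, eval_mul, eval_sub, eval_add, eval_pow, h1 2 (by norm_num),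
      h1 4 (by norm_num), h1 6 (by norm_num)]
    ring

end pen

section cub

variable {K D : Type} [Field K] [Ring D] [Algebra K D] (C : Cub K D)

theorem N_smul_add_one (c : K) (x : D) :
    C.N (c • x + 1) = c ^ 3 * C.N x + c ^ 2 * C.S x + c * C.T x + 1 := by
  rw [C.N_add, C.N_smul, C.adj_smul, C.adj_one, C.N_one, mul_one, mul_one, map_smul, map_smul,
    smul_eq_mul, smul_eq_mul]
  rfl

theorem cub_scalar (c : K) : C.T (algebraMap K D c) = 3 * c ∧ C.S (algebraMap K D c) = 3 * c ^ 2 ∧
    C.N (algebraMap K D c) = c ^ 3 := by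
  rw [Algebra.algebraMap_eq_smul_one]
  refine ⟨?_, ?_, ?_⟩
  · rw [map_smul, C.T_one, smul_eq_mul, mul_comm]
  · rw [C.S_smul, Cub.S, C.adj_one, C.T_one, mul_comm]
  · rw [C.N_smul, C.N_one, mul_one]

theorem cube_center {K D : Type} [Field K] [DivisionRing D] [Algebra K D]
    (h3 : (3 : K) ≠ 0) (C : Cub K D) {x : D} (h1 : C.T x ^ 2 = 3 * C.S x) (h2 : C.T x * C.S x = 9 * C.N x) :
    ∃ c : K, algebraMap K D c = x := by
  refine ⟨C.T x / 3, ?_⟩
  have h9 : (9 : K) ≠ 0 := by
    rw [show (9 : K) = 3 * 3 by norm_num]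
    exact mul_ne_zero h3 h3
  set c := C.T x / 3 with hc
  have hT : C.T x = 3 * c := by rw [hc, mul_div_cancel₀ _ h3]
  have hS : C.S x = 3 * c ^ 2 := by
    rw [hT] at h1
    apply mul_left_cancel₀ h3
    linear_combination (-1 : K) * h1
  have hN : C.N x = c ^ 3 := by
    rw [hT, hS] at h2
    apply mul_left_cancel₀ h9
    linear_combination (-1 : K) * h2
  have h4 := C.cayley x
  rw [hT, hS, hN] at h4
  have hcom : Commute x (algebraMap K D c) := (Algebra.commutes c x).symm
  have h5 : (x - algebraMap K D c) ^ 3 = 0 := by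
    rw [← h4]
    simp only [Algebra.smul_def, map_mul, map_pow, map_ofNat]
    have e := hcom.eq
    have : (x - algebraMap K D c) ^ 3 = x * x * x - 3 * algebraMap K D c * (x * x) +
        3 * algebraMap K D c ^ 2 * x - algebraMap K D c ^ 3 * 1 := by
      have e1 : (x - algebraMap K D c) ^ 3 = x * x * x - (x * x * algebraMap K D c +
          x * algebraMap K D c * x + algebraMap K D c * x * x) +
          (x * algebraMap K D c * algebraMap K D c + algebraMap K D c * x * algebraMap K D c +
            algebraMap K D c * algebraMap K D c * x) -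
          algebraMap K D c * algebraMap K D c * algebraMap K D c := by
        simp only [pow_succ, pow_zero, one_mul]
        noncomm_ring
      rw [e1]
      have e2 : x * x * algebraMap K D c = algebraMap K D c * (x * x) := by
        rw [mul_assoc, e, ← mul_assoc, e, mul_assoc]
      have e3 : x * algebraMap K D c * x = algebraMap K D c * (x * x) := by rw [e, mul_assoc]
      have e4 : x * algebraMap K D c * algebraMap K D c =
          algebraMap K D c * algebraMap K D c * x := by
        rw [e, mul_assoc, e, ← mul_assoc]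
      have e5 : algebraMap K D c * x * algebraMap K D c =
          algebraMap K D c * algebraMap K D c * x := by
        rw [mul_assoc, e, ← mul_assoc]
      rw [e2, e3, e4, e5]
      simp only [pow_succ, pow_zero, one_mul, mul_one]
      noncomm_ring
    exact this
  exact (sub_eq_zero.mp (pow_eq_zero_iff (by norm_num) |>.mp h5)).symm

end cub

end Vale.Agent.P011.H872.FF
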