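import Vale.Agent.P011.H872.FF.AOneF
import Vale.Agent.P011.H976.FF.AbOfYF
import Vale.Agent.P011.H511.SqF
import Vale.Agent.P011.H359.Dbl0

/-!
The doubling step over function fields, degree six: the elements of the centralizer of a symmetric
square root which are close to one belong to every normal subgroup of finite index which contains
the norm one elements of quaternion algebras.
-/

open Module Polynomial

set_option linter.unusedSectionVars false

namespace Vale.Agent.P011.H872.FF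

open Vale.Agent.P011.H305 Vale.Agent.P011.H738 Vale.Agent.P011.H271
open Vale.Agent.P011.H271.S3 Vale.Agent.P011.H182
open Vale.Agent.P011.H63.FB (incF)
open Vale.Agent.P011.W (HasNrd)
open Vale.Agent.P011.H698 (NearA Sm)
open Vale.Agent.P011.H732D (AbAtF ImF)

/-- Coordinates and norms. -/
theorem na_of_small {k D : Type} [Field k] [DivisionRing D] [Algebra k D] {N : ℕ}
    (B : Basis (Fin N) k D) {v : AbsoluteValue k ℝ} {ε : ℝ} (hε : 0 < ε) {x : D}
    (h : ∀ i, v (B.repr x i) < ε / (N + 1)) : na B v x < ε := by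
  refine (na_le_of_coord B v (fun i => (h i).le)).trans_lt ?_
  rw [mul_div_assoc', div_lt_iff₀ (by positivity)]
  nlinarith

/-- A normal subgroup contains the quotients of its elements. -/
theorem imF_div {K D Ω : Type} [Field K] [DivisionRing D] [StarRing D] [Algebra K D] [Field Ω]
    [Algebra K Ω] {n : ℕ} {f : D →ₐ[K] Matrix (Fin n) (Fin n) Ω} (Q : Subgroup (SUA f)) :
    ∀ x ∈ ImF Q, ∀ y ∈ ImF Q, x * y⁻¹ ∈ ImF Q := by
  rintro x ⟨gx, hgx, rfl⟩ y ⟨gy, hgy, rfl⟩
  refine ⟨gx * gy⁻¹, Q.mul_mem hgx (Q.inv_mem hgy), ?_⟩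
  change ((gx : Dˣ) : D) * ((gy : Dˣ)⁻¹ : Dˣ) = _
  rw [Units.val_inv_eq_inv_val]

/-- **The elements of the centralizer** in degree six, for every normal subgroup of finite index
which contains the norm one elements of the quaternion algebras, from degree three. -/
theorem abAt_threeF {k K D : Type} [Field k] [GFF k] [Field K] [StarRing K] [DivisionRing D]
    [StarRing D] [Algebra k K] [Algebra k D] [Algebra K D] [IsScalarTower k K D] {d : kˣ} {s : K}
    (hMP : ∀ (L K' C : Type) [Field L] [GFF L] [Field K'] [StarRing K'] [DivisionRing C]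
      [StarRing C] [Algebra L K'] [Algebra L C] [Algebra K' C] [IsScalarTower L K' C]
      [StarModule K' C] (d' : Lˣ) (s' : K'), SetF L K' C d' s' → finrank K' C = 3 ^ 2 →
      ∀ (Ω' : Type) [Field Ω'] [Algebra K' Ω'] (g : C →ₐ[K'] Matrix (Fin 3) (Fin 3) Ω') (M : ℕ)
        (B' : Basis (Fin M) L C) (N' : Subgroup (SUA g)), N'.Normal → N'.index ≠ 0 →
        NearA L K' g B' N')
    (h3 : (3 : k) ≠ 0) (hS : SetF k K D d s) (hdeg : finrank K D = (2 * 3) ^ 2) {a : kˣ} {t : D}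
    (ht : t ∈ XaF D a) (ha : ¬ IsSquare (a : k)) (had : ¬ IsSquare ((a * d : kˣ) : k))
    {Ω : Type} [Field Ω] [Algebra K Ω] (f : D →ₐ[K] Matrix (Fin (2 * 3)) (Fin (2 * 3)) Ω) {N : ℕ}
    (B : Basis (Fin N) k D) (Q : Subgroup (SUA f)) [Q.Normal] (hi : Q.index ≠ 0)
    {T0 : Finset (Place k)} {ε0 : ℝ} (hε0 : 0 < ε0) (hQ : H704.HQ.HQ1F k B T0 ε0 (ImF Q)) :
    AbAtF B f (ImF Q) t := by
  classical
  obtain ⟨L, _, _, _, K', _, _, _, _, C, _, _, _, _, _, _, T, jC, hSC, hdC, h⟩ :=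
    H167.Cn.exists_isCentF hS ha had (m := 3) hdeg ht
  have i3 := hSC.fin
  have i4 := hSC.cen
  have i5 : StarModule K' C := hSC.starModule
  have hkinf : Infinite k := Vale.Agent.P011.Hey.gff_infinite k
  have hKinf : Infinite K := Infinite.of_injective _ (algebraMap k K).injective
  obtain ⟨CC⟩ := H775.exists_cub (K := K') (D := C) hdC
  let _ : Algebra k K' := ((algebraMap K K').comp (algebraMap k K)).toAlgebra
  have _ : IsScalarTower k K K' := IsScalarTower.of_algebraMap_eq fun _ => rfl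
  have f1 : FiniteDimensional L K' := FiniteDimensional.of_finrank_pos (by
    rw [hSC.rank]; norm_num)
  have f2 : FiniteDimensional L C := Module.Finite.trans K' C
  obtain ⟨g⟩ := Vale.Agent.P011S.exists_split (K := K') (D := C) hdC (AlgebraicClosure K')
  refine H976.FF.abAt_of_yF hS hdeg hSC hdC h f B Q hi g (finBasis L C)
    (hMP L K' C _ _ hSC hdC _ g _ (finBasis L C)) fun ε hε S0 => ?_
  obtain ⟨S, ε1, hSf, hε1, hJ⟩ := exists_good_jF hS hSC h hdC ht CC h3 B
    (H511.FF.exists_sqF hS (m := 3) hdeg (by norm_num) ht ha had)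
  obtain ⟨S1, hS1, hy0⟩ := exists_y_goodF hS hSC h hdC ht (H167.Cn.Xa_ne hS ha ht) CC h3 B
    (imF_div Q) hε0 hQ
  obtain ⟨S2, hS2⟩ : ∃ S2, S2 = S1 ∪ (S ∪ (S0 : Set (Place k))) := ⟨_, rfl⟩
  have hS2f : S2.Finite := by
    rw [hS2]
    exact hS1.union (hSf.union S0.finite_toSet)
  obtain ⟨c1, hc1, hy⟩ := hy0 S2 hS2f (by rw [hS2]; exact Set.subset_union_left) (fun _ => ε)
    fun _ => hε
  have hSS : S ⊆ S2 := by
    rw [hS2]
    exact fun v hv => Or.inr (Or.inl hv)
  have hS0S : (S0 : Set (Place k)) ⊆ S2 := by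
    rw [hS2]
    exact fun v hv => Or.inr (Or.inr hv)
  choose η hη hpu using fun v : Place k =>
    H167.Cn.pu_near hS hSC h hdC B v.abv (lt_min hε1 (hc1 v))
  obtain ⟨η0, hη0, hη0'⟩ := H167.Cn.exists_min_pos hS2f (fun v => min (η v) ε1 / (N + 1))
    fun v => div_pos (lt_min (hη v) hε1) (by positivity)
  refine ⟨hS2f.toFinset, η0, hη0, ?_⟩
  intro x p u hx hN hpu' hnear
  have hnx : ∀ v ∈ S2, na B v.abv (jC x - 1) < min (η v) ε1 := fun v hv =>
    na_of_small B (lt_min (hη v) hε1) fun i =>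
      (hnear v (hS2f.mem_toFinset.mpr hv) i).trans_le (hη0' v hv)
  have hpc : ∀ v ∈ S2, v.abv (p - 1) < min ε1 (c1 v) ∧ v.abv u < min ε1 (c1 v) := fun v hv =>
    hpu v x p u hN ((hnx v hv).trans_le (min_le_left _ _))
  obtain ⟨j, γ, a1, a2, a3, hg⟩ := hJ x p u (by rw [Units.val_mul]; exact hpu')
    (H359.cub_of_hasNrd CC hdC hN)
    (fun v hv => ⟨(hpc v (hSS hv)).1.trans_le (min_le_left _ _),
      (hpc v (hSS hv)).2.trans_le (min_le_left _ _)⟩)
    (fun v hv => (hnx v (hSS hv)).trans_le (min_le_right _ _))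
  obtain ⟨y, hy1, hy2, hy3, hy4⟩ := hy j γ a1 a2 a3 p u (goodJF_mono hSS hg) hpu'
    (fun v hv => ⟨(hpc v hv).1.trans_le (min_le_right _ _),
      (hpc v hv).2.trans_le (min_le_right _ _)⟩)
  refine ⟨y, hy1, ?_, hy3, fun v hv i => ?_⟩
  · rw [← hy2]
    exact H359.hasNrd_cub CC hdC y
  · exact (coord_le_na B v.abv _ i).trans_lt (hy4 v (hS0S hv))

end Vale.Agent.P011.H872.FF
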