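import Vale.Agent.P011.H83.CopNear

/-!
Two polynomials near the coordinates of `(2 i (1 + i X)) ^ m`, `i² = δ`, are coprime.
-/

open Polynomial Filter Topology

set_option linter.unusedSectionVars false

namespace Vale.Agent.P011.H872.R4

open Vale.Agent.P011.H83.CopNear

section near

variable {k : Type} [Field k]

/-- **The resultant is continuous** in the coefficients. -/
theorem res_near (a : AbsoluteValue k ℝ) (m : ℕ) {U0 V0 : k[X]} (hU0 : U0.natDegree ≤ m)
    (hV0 : V0.natDegree ≤ m) (h : resultant U0 V0 m m ≠ 0) :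
    ∃ κ : ℝ, 0 < κ ∧ ∀ U V : k[X], U.natDegree ≤ m → V.natDegree ≤ m →
      (∀ n ≤ m, a (U.coeff n - U0.coeff n) < κ) → (∀ n ≤ m, a (V.coeff n - V0.coeff n) < κ) →
        resultant U V m m ≠ 0 := by
  classical
  let X := {p : k[X] × k[X] // p.1.natDegree ≤ m ∧ p.2.natDegree ≤ m}
  let e : X → ℝ := fun p => ∑ n ∈ Finset.range (m + 1),
    (a (p.1.1.coeff n - U0.coeff n) + a (p.1.2.coeff n - V0.coeff n))
  have he0 : ∀ p : X, ∀ n ≤ m, a (p.1.1.coeff n - U0.coeff n) ≤ e p ∧
      a (p.1.2.coeff n - V0.coeff n) ≤ e p := by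
    intro p n hn
    have h1 : a (p.1.1.coeff n - U0.coeff n) + a (p.1.2.coeff n - V0.coeff n) ≤ e p :=
      Finset.single_le_sum (f := fun n => a (p.1.1.coeff n - U0.coeff n) +
        a (p.1.2.coeff n - V0.coeff n)) (fun n _ => add_nonneg (a.nonneg _) (a.nonneg _))
        (Finset.mem_range.mpr (by omega))
    have h2 := a.nonneg (p.1.1.coeff n - U0.coeff n)
    have h3 := a.nonneg (p.1.2.coeff n - V0.coeff n)
    exact ⟨by linarith, by linarith⟩
  have ht : Tendsto e (comap e (𝓝 0)) (𝓝 0) := tendsto_comap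
  have hU : CtP a (comap e (𝓝 0)) (fun p : X => p.1.1) U0 := by
    intro n
    by_cases hn : n ≤ m
    · exact squeeze_zero (fun p => a.nonneg _) (fun p => (he0 p n hn).1) ht
    · have h1 : ∀ p : X, p.1.1.coeff n = 0 := fun p =>
        coeff_eq_zero_of_natDegree_lt (p.2.1.trans_lt (not_le.mp hn))
      have h2 : U0.coeff n = 0 := coeff_eq_zero_of_natDegree_lt (hU0.trans_lt (not_le.mp hn))
      simp only [h1, h2]
      exact Ct.const 0
  have hV : CtP a (comap e (𝓝 0)) (fun p : X => p.1.2) V0 := by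
    intro n
    by_cases hn : n ≤ m
    · exact squeeze_zero (fun p => a.nonneg _) (fun p => (he0 p n hn).2) ht
    · have h1 : ∀ p : X, p.1.2.coeff n = 0 := fun p =>
        coeff_eq_zero_of_natDegree_lt (p.2.2.trans_lt (not_le.mp hn))
      have h2 : V0.coeff n = 0 := coeff_eq_zero_of_natDegree_lt (hV0.trans_lt (not_le.mp hn))
      simp only [h1, h2]
      exact Ct.const 0
  have h1 := (CtP.resultant hU hV m m).ne_zero h
  rw [Filter.eventually_comap] at h1
  obtain ⟨ε, hε, h2⟩ := Metric.eventually_nhds_iff.1 h1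
  refine ⟨ε / (2 * (m + 1)), by positivity, fun U V hUd hVd hUn hVn => ?_⟩
  let p : X := ⟨(U, V), hUd, hVd⟩
  have hp : e p < ε := by
    have h3 : e p < ∑ n ∈ Finset.range (m + 1), (ε / (2 * (m + 1)) + ε / (2 * (m + 1))) := by
      refine Finset.sum_lt_sum_of_nonempty ⟨0, Finset.mem_range.mpr (by omega)⟩ fun n hn => ?_
      have hn' : n ≤ m := by
        have := Finset.mem_range.mp hn
        omega
      exact add_lt_add (hUn n hn') (hVn n hn')
    rw [Finset.sum_const, Finset.card_range, nsmul_eq_mul] at h3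
    have h4 : ((m + 1 : ℕ) : ℝ) * (ε / (2 * (m + 1)) + ε / (2 * (m + 1))) = ε := by
      push_cast
      field_simp
      ring
    rwa [h4] at h3
  have hp0 : 0 ≤ e p := Finset.sum_nonneg fun n _ => add_nonneg (a.nonneg _) (a.nonneg _)
  exact h2 (y := e p) (by rw [Real.dist_eq, sub_zero, abs_of_nonneg hp0]; exact hp) p rfl

end near

section pow

variable {k : Type} [Field k]

/-- The coordinates of `(2 i (1 + i X)) ^ m`, `i² = δ`. -/
noncomputable def uv (δ : k) : ℕ → k[X] × k[X]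
  | 0 => (1, 0)
  | m + 1 => ((uv δ m).1 * (C (2 * δ) * X) + C (2 * δ) * (uv δ m).2,
      C 2 * (uv δ m).1 + (uv δ m).2 * (C (2 * δ) * X))

/-- In an algebra with a square root of `δ`. -/
theorem uv_eval {A : Type} [CommRing A] [Algebra k A] {δ : k} {i : A}
    (hi : i * i = algebraMap k A δ) (z : A) (m : ℕ) :
    aeval z (uv δ m).1 + aeval z (uv δ m).2 * i = (2 * i * (1 + i * z)) ^ m := by
  induction m with
  | zero => simp [uv]
  | succ m ih =>
    rw [pow_succ, ← ih, uv]
    simp only [map_add, map_mul, aeval_C, aeval_X, map_ofNat]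
    rw [← hi]
    ring

theorem uv_deg (δ : k) (m : ℕ) : (uv δ m).1.natDegree ≤ m ∧ (uv δ m).2.natDegree ≤ m := by
  induction m with
  | zero => simp [uv]
  | succ m ih =>
    have hX : (C (2 * δ) * X : k[X]).natDegree ≤ 1 := (natDegree_C_mul_le _ _).trans natDegree_X_le
    rw [uv]
    constructor
    · refine (natDegree_add_le _ _).trans (max_le ?_ ?_)
      · exact natDegree_mul_le_of_le ih.1 hX
      · exact (natDegree_C_mul_le _ _).trans (ih.2.trans (by omega))
    · refine (natDegree_add_le _ _).trans (max_le ?_ ?_)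
      · exact (natDegree_C_mul_le _ _).trans (ih.1.trans (by omega))
      · exact natDegree_mul_le_of_le ih.2 hX

theorem uv_coeff (δ : k) (m : ℕ) : (uv δ m).1.coeff m = (2 * δ) ^ m ∧ (uv δ m).2.coeff m = 0 := by
  induction m with
  | zero => simp [uv]
  | succ m ih =>
    obtain ⟨d1, d2⟩ := uv_deg δ m
    have h1 : (uv δ m).1.coeff (m + 1) = 0 := coeff_eq_zero_of_natDegree_lt (by omega)
    have h2 : (uv δ m).2.coeff (m + 1) = 0 := coeff_eq_zero_of_natDegree_lt (by omega)
    rw [uv]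
    constructor
    · rw [coeff_add, coeff_C_mul, h2, mul_zero, add_zero, ← mul_assoc, coeff_mul_X,
        coeff_mul_C, ih.1, pow_succ]
    · rw [coeff_add, coeff_C_mul, h1, mul_zero, zero_add, ← mul_assoc, coeff_mul_X,
        coeff_mul_C, ih.2, zero_mul]

theorem uv_res {δ : k} (h2 : (2 : k) ≠ 0) (hδ : δ ≠ 0) (m : ℕ) :
    resultant (uv δ m).1 (uv δ m).2 m m ≠ 0 := by
  let Ω := AlgebraicClosure k
  obtain ⟨i, hi⟩ := IsAlgClosed.exists_pow_nat_eq (algebraMap k Ω δ) (n := 2) (by norm_num)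
  have h2' : (2 : Ω) ≠ 0 := by
    rw [← map_ofNat (algebraMap k Ω) 2]
    exact (_root_.map_ne_zero _).mpr h2
  have hi' : i * i = algebraMap k Ω δ := by rw [← hi, pow_two]
  have hi'' : (-i) * (-i) = algebraMap k Ω δ := by rw [neg_mul_neg, hi']
  have hi0 : i ≠ 0 := by
    rintro rfl
    rw [mul_zero, eq_comm, _root_.map_eq_zero] at hi'
    exact hδ hi'
  obtain ⟨d1, d2⟩ := uv_deg δ m
  have h3 : resultant ((uv δ m).1.map (algebraMap k Ω)) ((uv δ m).2.map (algebraMap k Ω)) m m ≠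
      0 := by
    rcases Nat.eq_zero_or_pos m with rfl | hm
    · rw [resultant_zero_right_deg, pow_zero]
      exact one_ne_zero
    refine H359.res_ne (natDegree_map_le.trans d1) (natDegree_map_le.trans d2) ?_ ?_
    · rintro z ⟨g1, g2⟩
      rw [eval_map_algebraMap] at g1 g2
      have e1 := uv_eval hi' z m
      have e2 := uv_eval hi'' z m
      rw [g1, g2, zero_mul, add_zero] at e1 e2
      have f1 := (pow_eq_zero_iff hm.ne').mp e1.symm
      have f2 := (pow_eq_zero_iff hm.ne').mp e2.symm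
      have f3 : 1 + i * z = 0 := (mul_eq_zero.mp f1).resolve_left (mul_ne_zero h2' hi0)
      have f4 : 1 + -i * z = 0 := (mul_eq_zero.mp f2).resolve_left
        (mul_ne_zero h2' (neg_ne_zero.mpr hi0))
      apply h2'
      linear_combination f3 + f4
    · rintro ⟨g1, -⟩
      rw [coeff_map, (uv_coeff δ m).1, _root_.map_eq_zero] at g1
      exact pow_ne_zero m (mul_ne_zero h2 hδ) g1
  rw [resultant_map_map] at h3
  exact fun h4 => h3 (by rw [h4, map_zero])

/-- **(R4)** -/
theorem cop_near_uv (a : AbsoluteValue k ℝ) {δ : k} (h2 : (2 : k) ≠ 0) (hδ : δ ≠ 0) (m : ℕ) :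
    ∃ κ : ℝ, 0 < κ ∧ ∀ U V : k[X], U.natDegree ≤ m → V.natDegree ≤ m →
      (∀ n ≤ m, a (U.coeff n - (uv δ m).1.coeff n) < κ) →
      (∀ n ≤ m, a (V.coeff n - (uv δ m).2.coeff n) < κ) →
        resultant U V m m ≠ 0 ∧ IsCoprime U V ∧ U.coeff m ≠ 0 := by
  obtain ⟨κ, hκ, h⟩ := res_near a m (uv_deg δ m).1 (uv_deg δ m).2 (uv_res h2 hδ m)
  have h0 : (2 * δ) ^ m ≠ 0 := pow_ne_zero m (mul_ne_zero h2 hδ)
  refine ⟨min κ (a ((2 * δ) ^ m)), lt_min hκ (a.pos h0), fun U V hU hV hUn hVn => ?_⟩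
  have h1 := h U V hU hV (fun n hn => (hUn n hn).trans_le (min_le_left _ _))
    (fun n hn => (hVn n hn).trans_le (min_le_left _ _))
  have h3 : U.coeff m ≠ 0 := by
    intro h4
    have h5 := (hUn m le_rfl).trans_le (min_le_right _ _)
    rw [h4, (uv_coeff δ m).1, zero_sub, a.map_neg] at h5
    exact lt_irrefl _ h5
  refine ⟨h1, ?_, h3⟩
  rcases Nat.eq_zero_or_pos m with rfl | hm
  · have hUc : U = C (U.coeff 0) := eq_C_of_natDegree_le_zero hU
    refine ⟨C (U.coeff 0)⁻¹, 0, ?_⟩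
    rw [zero_mul, add_zero, hUc, coeff_C_zero, ← C_mul, inv_mul_cancel₀ h3, C_1]
  · exact H359.cop_of_res hU hV hm.ne' h1

end pow

end Vale.Agent.P011.H872.R4
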