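import Vale.Agent.P011.H872.FF.AbThreeF
import Vale.Agent.P011.H305.SolvF
import Vale.Agent.P011.H74.U.T3U

/-!
The doubling step over function fields, degree six, with the theorem in degree three.
-/

open Module Polynomial

set_option linter.unusedSectionVars false

namespace Vale.Agent.P011.H872.FF

open Vale.Agent.P011.H305 Vale.Agent.P011.H738 Vale.Agent.P011.H271
open Vale.Agent.P011.H698 (NearA Sm)
open Vale.Agent.P011.H732D (AbAtF ImF)

theorem isGlobal_of_gff {k : Type} [Field k] [GFF k] : IsGlobalFunctionField k := by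
  obtain ⟨F, _, _, φ, h1, -⟩ := (inferInstance : GFF k).out
  exact ⟨F, inferInstance, inferInstance, φ.toAlgebra, h1⟩

/-- **Every normal subgroup of finite index is open** in degree three. -/
theorem near_three {L K' C : Type} [Field L] [GFF L] [Field K'] [StarRing K'] [DivisionRing C]
    [StarRing C] [Algebra L K'] [Algebra L C] [Algebra K' C] [IsScalarTower L K' C]
    [StarModule K' C] {d' : Lˣ} {s' : K'} (hSC : SetF L K' C d' s') (hdC : finrank K' C = 3 ^ 2)
    {Ω' : Type} [Field Ω'] [Algebra K' Ω'] (g : C →ₐ[K'] Matrix (Fin 3) (Fin 3) Ω') {M : ℕ}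
    (B' : Basis (Fin M) L C) (N' : Subgroup (SUA g)) (hN : N'.Normal) (hi : N'.index ≠ 0) :
    NearA L K' g B' N' :=
  near_of_solv isGlobal_of_gff (hSC.anis hdC) le_rfl g B'
    (H74.solvAtF_threeU isGlobal_of_gff (hSC.anis hdC) hSC.two_ne g B') N' hi

/-- **The elements of the centralizer** in degree six, for every normal subgroup of finite index
which contains the norm one elements of the quaternion algebras. -/
theorem abAt_sixF {k K D : Type} [Field k] [GFF k] [Field K] [StarRing K] [DivisionRing D]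
    [StarRing D] [Algebra k K] [Algebra k D] [Algebra K D] [IsScalarTower k K D] {d : kˣ} {s : K}
    (h3 : (3 : k) ≠ 0) (hS : SetF k K D d s) (hdeg : finrank K D = (2 * 3) ^ 2) {a : kˣ} {t : D}
    (ht : t ∈ XaF D a) (ha : ¬ IsSquare (a : k)) (had : ¬ IsSquare ((a * d : kˣ) : k))
    {Ω : Type} [Field Ω] [Algebra K Ω] (f : D →ₐ[K] Matrix (Fin (2 * 3)) (Fin (2 * 3)) Ω) {N : ℕ}
    (B : Basis (Fin N) k D) (Q : Subgroup (SUA f)) [Q.Normal] (hi : Q.index ≠ 0)
    {T0 : Finset (Place k)} {ε0 : ℝ} (hε0 : 0 < ε0) (hQ : H704.HQ.HQ1F k B T0 ε0 (ImF Q)) :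
    AbAtF B f (ImF Q) t :=
  abAt_threeF (fun L K' C _ _ _ _ _ _ _ _ _ _ _ d' s' hSC hdC Ω' _ _ g M B' N' hN hi' =>
    near_three hSC hdC g B' N' hN hi') h3 hS hdeg ht ha had f B Q hi hε0 hQ

end Vale.Agent.P011.H872.FF
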