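import Vale.Agent.P011.H872.FF.DblF1

/-!
The element `j` attached to an element of the centralizer near one: function fields, second part.
-/

open Module Polynomial
open scoped NNReal

set_option linter.unusedSectionVars false

namespace Vale.Agent.P011.H872.FF

open Vale.Agent.P011.H305 Vale.Agent.P011.H738 Vale.Agent.P011.H271 Vale.Agent.P011.H271.ConF
open Vale.Agent.P011.H271.S3 Vale.Agent.P011.H182
open Vale.Agent.P011.H63.FB (incF LSF)
open Vale.Agent.P011.Arith (NF)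
open Vale.Agent.P011.H775 (Cub)
open Vale.Agent.P011.H83.NuNorm (nn NN)

/-- The property of the output. -/
structure GoodJF (k K : Type) {D K' C : Type} [Field k] [GFF k] [Field K] [Field K']
    [GFF K'] [Ring D] [StarRing D] [Ring C] [Algebra k K] [Algebra K K'] [Algebra K' C]
    [Algebra k K'] (CC : Cub K' C) (ι : C →+* D) (δ : kˣ) (t : D)
    (S : Set (Place k)) (ν : K') (j : D) (γ : C) (a1 a2 a3 : k) : Prop where
  ne : j ≠ 0
  wt : Wt t j
  has : HasE k K CC ι j γ a1 a2 a3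
  gen : ∀ c : K', algebraMap K' C c ≠ γ
  ram : ∀ (F : Type) [Field F] [GFF F] [Algebra k F] (β : Fˣ),
    (β : F) ^ 3 - algebraMap k F a1 * (β : F) ^ 2 + algebraMap k F a2 * β -
      algebraMap k F a3 = 0 → ∀ v ∉ S, ∀ ω : Place F, Ab ω v → β ∈ NF (incF k F δ) ⊔ LSF ω
  loc : ∀ (E : Type) [Field E] [GFF E] [Algebra K' E], finrank K' E = 3 → ∀ θ : E,
    θ ^ 3 - algebraMap K' E (algebraMap k K' a1) * θ ^ 2 +
      algebraMap K' E (algebraMap k K' a2) * θ - algebraMap K' E (algebraMap k K' a3) = 0 →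
    (∀ c : K', algebraMap K' E c ≠ θ) → ∀ v ∉ S, ∀ V : Place K', Ab V v →
      ∃ e : E, V.abv (ν / Algebra.norm K' e - 1) < 1

/-- The cubic equation of a multiple of a root. -/
theorem cubic_div {k F : Type} [Field k] [Field F] [Algebra k F] {a1 a2 a3 r : k} (hr : r ≠ 0)
    {β : F} (hβ : β ^ 3 - algebraMap k F a1 * β ^ 2 + algebraMap k F a2 * β -
      algebraMap k F a3 = 0) :
    (β / algebraMap k F r ^ 2) ^ 3 - algebraMap k F (a1 / r ^ 2) * (β / algebraMap k F r ^ 2) ^ 2 +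
      algebraMap k F (a2 / r ^ 4) * (β / algebraMap k F r ^ 2) - algebraMap k F (a3 / r ^ 6) = 0 := by
  have hr' : algebraMap k F r ≠ 0 := (_root_.map_ne_zero _).mpr hr
  simp only [map_div₀, map_pow]
  have e : (β / algebraMap k F r ^ 2) ^ 3 -
      algebraMap k F a1 / algebraMap k F r ^ 2 * (β / algebraMap k F r ^ 2) ^ 2 +
      algebraMap k F a2 / algebraMap k F r ^ 4 * (β / algebraMap k F r ^ 2) -
      algebraMap k F a3 / algebraMap k F r ^ 6 =
      (β ^ 3 - algebraMap k F a1 * β ^ 2 + algebraMap k F a2 * β - algebraMap k F a3) /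
        algebraMap k F r ^ 6 := by
    field_simp
  rw [e, hβ, zero_div]

section frm

variable {k K D L K' C : Type} [Field k] [Field K] [StarRing K]
  [DivisionRing D] [StarRing D] [Algebra k K] [Algebra k D] [Algebra K D] [IsScalarTower k K D]
  [Field L] [Algebra k L] [Field K'] [StarRing K']
  [Algebra K K'] [DivisionRing C] [StarRing C] [Algebra L K'] [Algebra L C] [Algebra K' C]
  [IsScalarTower L K' C] {d : kˣ} {s : K} {a : kˣ} {t : D} {T : L} {ι : C →+* D}

variable [GFF k] [GFF K'] [Algebra k K'] [IsScalarTower k K K']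

/-- **The element attached to an element of the centralizer near one.** -/
theorem exists_good_jF (hS : SetF k K D d s)
    (hSC : SetF L K' C (incF k L d) (algebraMap K K' s))
    (h : IsCentF k K D L K' C t a T ι) (hdC : finrank K' C = 3 ^ 2) (ht : t ∈ XaF D a)
    (CC : Cub K' C) (h3 : (3 : k) ≠ 0) {N : ℕ} (B : Module.Basis (Fin N) k D)
    (hw : ∃ w : D, star w = -w ∧ w * t = -(t * w) ∧ ∀ c : k, algebraMap k D c ≠ w * w) :
    ∃ (S : Set (Place k)) (ε : ℝ), S.Finite ∧ 0 < ε ∧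
      ∀ (x : C) (p u : k), p ^ 2 - (a * d : kˣ) * u ^ 2 = 1 →
        CC.N x = kk k K K' p + kk k K K' u * om K' s T →
        (∀ v ∈ S, v.abv (p - 1) < ε ∧ v.abv u < ε) →
        (∀ v ∈ S, na B v.abv (ι x - 1) < ε) →
        ∃ (j : D) (γ : C) (a1 a2 a3 : k), GoodJF k K CC ι (a * d) t S
          (kk k K K' p + kk k K K' u * om K' s T) j γ a1 a2 a3 := by
  have h2 := hS.two_ne
  have hkk : ∀ c : k, kk k K K' c = algebraMap k K' c := fun c =>
    (IsScalarTower.algebraMap_apply k K K' c).symm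
  obtain ⟨tr, htr⟩ := exists_tr hS hSC h hdC ht CC
  have i3 := hSC.fin
  have hinf : Infinite k := Vale.Agent.P011.Hey.gff_infinite k
  obtain ⟨j1, γ1, e1, e2, e3, hj0, hj1, he, h12, hnk⟩ := exists_base hS hSC h hdC ht CC h3 hw
  have hcop := cop_base h2 h3 h hdC CC htr he h12 hnk
  have he3 := he.ne hj0
  obtain ⟨g, hg0, hg⟩ := he.center' h3 (not_center h3 h he hnk)
  obtain ⟨S0, hS0, hS0'⟩ := exists_bad (a * d) he3 hg0 hg
  obtain ⟨v0⟩ : Nonempty (Place k) := by
    obtain ⟨v, -⟩ := H167.RhoF.exists_notMem (k := k) ∅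
    exact ⟨v⟩
  obtain ⟨ε0, hε0, hcn⟩ := H83.CopNear.cop_near_abv B v0.abv tr j1 ((4 : k) • j1 ^ 3) hcop
  have h4 : (4 : k) ≠ 0 := by
    rw [show (4 : k) = 2 * 2 by norm_num]
    exact mul_ne_zero h2 h2
  have h4j : (4 : k) • j1 ^ 3 ≠ 0 := smul_ne_zero h4 (pow_ne_zero 3 hj0)
  have hpos : 0 < na B v0.abv ((4 : k) • j1 ^ 3) := na_pos B v0.abv h4j
  obtain ⟨ε, hε, hnt⟩ := near_two hS h B v0 j1 (lt_min hε0 hpos)
  refine ⟨insert v0 S0, ε, hS0.insert v0, hε, ?_⟩
  intro x p u hpu hN hpc hx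
  have hS' : ∀ v ∉ insert v0 S0, v.abv ((a * d : kˣ) : k) = 1 ∧ vr v e1 ≤ 1 ∧ vr v e2 ≤ 1 ∧
      vr v e3 = 1 ∧ ¬ (vr v (e1 ^ 2 - 3 * e2) < 1 ∧ vr v (e1 * e2 - 9 * e3) < 1) :=
    fun v hv => hS0' v fun h1 => hv (Set.mem_insert_of_mem _ h1)
  set S := insert v0 S0 with hSdef
  have hSf : S.Finite := hS0.insert v0
  -- the places where the norm is not a unit
  obtain ⟨Sg, hSg⟩ : ∃ Sg : Set (Place k), Sg = {v | v ∉ S ∧ 1 < v.abv u} := ⟨_, rfl⟩
  have hSgf : Sg.Finite := by
    rcases eq_or_ne u 0 with rfl | hu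
    · refine Set.Finite.subset Set.finite_empty ?_
      rw [hSg]
      rintro v ⟨-, hv⟩
      rw [map_zero] at hv
      exact absurd hv (not_lt.mpr zero_le_one)
    · refine (place_finite hu).subset ?_
      rw [hSg]
      rintro v ⟨-, hv⟩
      exact hv.ne'
  have hmul := nu_mul hS h hpu
  set ν := kk k K K' p + kk k K K' u * om K' s T with hν
  set ν' := kk k K K' p - kk k K K' u * om K' s T with hν'
  have hν0 : ν ≠ 0 := left_ne_zero_of_mul_eq_one hmul
  have hsum : ν + ν' = algebraMap k K' (2 * p) := by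
    rw [hν, hν', ← hkk, map_mul, map_ofNat]
    ring
  have hPf : {V : Place K' | ∃ v ∈ Sg, Ab V v}.Finite := by
    have e : {V : Place K' | ∃ v ∈ Sg, Ab V v} = ⋃ v ∈ Sg, {V : Place K' | Ab V v} := by
      ext V
      simp
    rw [e]
    exact hSgf.biUnion fun v _ => H73.Sp.above_finite v
  obtain ⟨M, n, j2, hj2, hW2, hf3', hMV⟩ := exists_j2 hS hSC h hdC ht CC hj0 hj1 he hpu hN hPf
  have hnear : na B v0.abv (j2 - (4 : k) • j1 ^ 3) <
      min ε0 (na B v0.abv ((4 : k) • j1 ^ 3)) := by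
    rw [hj2]
    have h1 := hpc v0 (Set.mem_insert _ _)
    exact hnt x p u h1.1 h1.2 (hx v0 (Set.mem_insert _ _)) M
  have hj20 : j2 ≠ 0 := by
    rintro rfl
    rw [zero_sub, na_neg] at hnear
    exact absurd (hnear.trans_le (min_le_right _ _)) (lt_irrefl _)
  obtain ⟨γ2, f1, f2, f3, hf⟩ := exists_E hS hSC h hdC ht CC hj20 hW2
  have hf3 := hf.ne hj20
  have hfn := hf3' γ2 f1 f2 f3 hf
  have hn0 : n ≠ 0 := by
    rintro rfl
    rw [zero_mul] at hfn
    exact hf3 ((_root_.map_eq_zero (kk k K K')).mp hfn)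
  obtain ⟨q, j, γ, a1, a2, a3, hq0, hjn, hWj, ha, hgen, hSgv, hout⟩ :=
    exists_T_j hS hSC h hdC ht CC h3 htr hj1 hW2 he hf hj20
      (hcn j2 (hnear.trans_le (min_le_left _ _))) hSf hSgf (fun v hv => (hS' v hv).2)
  refine ⟨j, γ, a1, a2, a3, hjn, hWj, ha, hgen, ?_, ?_⟩
  · -- the ramification
    intro F _ _ _ β hβ v hv ω hω
    obtain ⟨wδ, w1, w2, w3, w4⟩ := hS' v hv
    by_cases hvs : v ∈ Sg
    · rw [hSg] at hvs
      exact H974.ram_splitF h2 (a * d) wδ hpu hvs.2 hω β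
    · obtain ⟨r, hr0, g1, g2, g3, g4, g5⟩ := hout v hv hvs
      obtain ⟨p', q', hp1, hp2⟩ := e3_mul hS hSC h hdC ht CC hj0 hjn hj1 hWj he ha
      have hr' : algebraMap k F r ≠ 0 := (_root_.map_ne_zero _).mpr hr0
      have hβ' := cubic_div hr0 hβ
      have hu1 : (β : F) / algebraMap k F r ^ 2 =
          ((β * ((incF k F (Units.mk0 r hr0)) ^ 2)⁻¹ : Fˣ) : F) := by
        rw [Units.val_mul, Units.val_inv_eq_inv_val, Units.val_pow_eq_pow_val, div_eq_mul_inv]
        rfl
      rw [hu1] at hβ'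
      have hpq : (p' / r ^ 3) ^ 2 - ((a * d : kˣ) : k) * (q' / r ^ 3) ^ 2 =
          (p' ^ 2 - ((a * d : kˣ) : k) * q' ^ 2) / r ^ 6 := by
        field_simp
      have h5 := H974.ram_outF h2 (a * d) (β * ((incF k F (Units.mk0 r hr0)) ^ 2)⁻¹) wδ
        (vr_le_one.1 g1) (vr_le_one.1 g2) (vr_le_one.1 g3)
        (fun hh => g5 ⟨vr_lt_one.2 hh.1, vr_lt_one.2 hh.2⟩) hβ' (g := e3) (p := p' / r ^ 3)
        (q := q' / r ^ 3) (by
          rw [hpq, hp1]
          field_simp) (by
          rw [hpq]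
          exact div_ne_zero hp2 (pow_ne_zero _ hr0)) (vr_eq_one.1 w3) hω
      have h6 := mul_mem h5 (Subgroup.mem_sup_right (S := NF (incF k F (a * d)))
        (H63.FB.sq_mem_LSF ω (incF k F (Units.mk0 r hr0))))
      rwa [inv_mul_cancel_right] at h6
  · -- the local norms
    intro E _ _ _ hE θ hθ hθgen v hv V hV
    obtain ⟨wδ, w1, w2, w3, w4⟩ := hS' v hv
    have hVv : ∀ {y : k}, vr v y ≤ 1 → vr V (algebraMap k K' y) ≤ 1 := fun hy =>
      vr_le_one.2 ((H73.Sp.val_le_one_iff hV _).mpr (vr_le_one.1 hy))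
    have hVl : ∀ {y : k}, vr v y < 1 ↔ vr V (algebraMap k K' y) < 1 := fun {y} => by
      rw [vr_lt_one, vr_lt_one]
      exact (H73.Sp.val_lt_one_iff hV _).symm
    have hres : ∀ {e : E}, vr V (ν / Algebra.norm K' e - 1) < 1 →
        V.abv (ν / Algebra.norm K' e - 1) < 1 := fun hh => vr_lt_one.1 hh
    by_cases hvs : v ∈ Sg
    · have hvs' := hvs
      rw [hSg] at hvs'
      have hu1 : 1 < vr v u := by
        rw [← not_le, vr_le_one, not_le]
        exact hvs'.2
      have hpv := val_p_eq (vr v) (vr_eq_one.2 wδ) hpu hu1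
      have w2' : vr v (2 : k) = 1 := vr_eq_one.2 (H63.FB.abv_two v h2)
      have hne : vr V ν ≠ 1 := by
        refine nu_ne _ hmul hsum ?_
        have h1 : ¬ vr v (2 * p) ≤ 1 := by
          rw [map_mul, w2', one_mul, hpv, not_le]
          exact hu1
        rw [← not_le]
        intro h4
        exact h1 (vr_le_one.2 ((H73.Sp.val_le_one_iff hV _).mp (vr_le_one.1 h4)))
      have hNθ := norm_root hE hθ hθgen
      have hx1 : vr V (algebraMap k K' a3 / (algebraMap k K' q ^ 6 *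
          algebraMap k K' f3) - 1) < 1 := by
        have h1 := hVl.1 (hSgv v hvs)
        rwa [map_sub, map_div₀, map_mul, map_pow, map_one] at h1
      have hq0' : algebraMap k K' q ≠ 0 := (_root_.map_ne_zero _).mpr hq0
      have he0' : algebraMap k K' e3 ≠ 0 := (_root_.map_ne_zero _).mpr he3
      rw [hkk, hkk] at hfn
      obtain ⟨m1, m2⟩ := hMV V ⟨v, hvs, hV⟩
      rcases lt_or_gt_of_ne hne with hlt | hgt
      · obtain ⟨e, hee⟩ := loc_lt hE _ M hNθ hq0' he0' hν0 hn0 hfn hx1 (m1 hlt)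
        exact ⟨e, hres hee⟩
      · obtain ⟨e, hee⟩ := loc_gt hE _ M hNθ hq0' he0' hν0 hn0 hfn hx1 (m2 hgt)
        exact ⟨e, hres hee⟩
    · have hu1 : vr v u ≤ 1 := by
        rw [vr_le_one]
        by_contra hu1
        exact hvs (by rw [hSg]; exact ⟨hv, not_le.mp hu1⟩)
      have hp1 := val_p_le (vr v) (vr_eq_one.2 wδ) hpu hu1
      have hVk : ∀ c : k, vr v c ≤ 1 → vr V (kk k K K' c) ≤ 1 := by
        intro c hc
        rw [hkk]
        exact hVv hc
      have hVo : vr V (om K' s T) ≤ 1 := by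
        have h1 := congrArg (vr V) (om_sq hS h)
        have h4 : vr V (kk k K K' (a * d)) ≤ 1 := by
          rw [← Units.val_mul]
          exact hVk _ (vr_eq_one.2 wδ).le
        rw [map_mul, ← pow_two] at h1
        rw [← h1] at h4
        exact (pow_le_one_iff two_ne_zero).mp h4
      have hVuo : vr V (kk k K K' u * om K' s T) ≤ 1 := by
        rw [map_mul]
        exact mul_le_one' (hVk u hu1) hVo
      have hV1 : vr V ν = 1 := by
        refine nu_eq _ hmul ?_ ?_
        · exact (Valuation.map_add_le _ (hVk p hp1) hVuo)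
        · rw [hν', sub_eq_add_neg]
          exact (Valuation.map_add_le _ (hVk p hp1) (by rw [Valuation.map_neg]; exact hVuo))
      obtain ⟨r, hr0, g1, g2, g3, g4, g5⟩ := hout v hv hvs
      have hr' : algebraMap k K' r ≠ 0 := (_root_.map_ne_zero _).mpr hr0
      have hθ' := cubic_div hr' hθ
      have hc1 : algebraMap k K' a1 / algebraMap k K' r ^ 2 = algebraMap k K' (a1 / r ^ 2) := by
        rw [map_div₀, map_pow]
      have hc2 : algebraMap k K' a2 / algebraMap k K' r ^ 4 = algebraMap k K' (a2 / r ^ 4) := by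
        rw [map_div₀, map_pow]
      have hc3 : algebraMap k K' a3 / algebraMap k K' r ^ 6 = algebraMap k K' (a3 / r ^ 6) := by
        rw [map_div₀, map_pow]
      rw [hc1, hc2, hc3] at hθ'
      refine loc_of_not_cube hE V (vr_le_one.1 (hVv g1)) (vr_le_one.1 (hVv g2))
        (vr_le_one.1 (hVv g3)) ?_ hθ' ?_ (vr_eq_one.1 hV1)
      · rintro ⟨b1, b2⟩
        refine g4 ⟨hVl.2 ?_, hVl.2 ?_⟩
        · rw [map_sub, map_mul, map_pow, map_ofNat]
          exact vr_lt_one.2 b1
        · rw [map_sub, map_mul, map_mul, map_ofNat]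
          exact vr_lt_one.2 b2
      · intro c hc
        apply hθgen (c * algebraMap k K' r ^ 2)
        rw [map_mul, hc, map_pow, div_mul_cancel₀]
        exact pow_ne_zero 2 ((_root_.map_ne_zero _).mpr hr')

end frm

end Vale.Agent.P011.H872.FF
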