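import Vale.Agent.P011.H976.FF.ProjYF
import Vale.Agent.P011.H872.FF.DblF2
import Vale.Agent.P011.H704.HQ.Pu
import Vale.Agent.P011.H496.CubeF
import Vale.Agent.P011.H496.NearValF
import Vale.Agent.P011.H511.HasseApproxF
import Vale.Agent.P011.H929.DP

/-!
The doubling step over function fields: from an antisymmetric element anticommuting with `t` with
good local properties to an element of given reduced norm in the subgroup.
-/

open Module Polynomial
open scoped NNReal

set_option linter.unusedSectionVars false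

namespace Vale.Agent.P011.H872.FF

open Vale.Agent.P011.H305 Vale.Agent.P011.H738 Vale.Agent.P011.H271
open Vale.Agent.P011.H271.S3 Vale.Agent.P011.H182
open Vale.Agent.P011.H63.FB (incF LSF)
open Vale.Agent.P011.Arith (NF)
open Vale.Agent.P011.H775 (Cub)
open Vale.Agent.P011.H976.FF (QFrF QEltF)
open Vale.Agent.P011.H704.HQ (HQ1F)

section field

/-- The field generated by a noncentral element in degree three. -/
theorem exists_fieldF {K C : Type} [Field K] [GFF K] [DivisionRing C] [StarRing C] [Algebra K C]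
    [FiniteDimensional K C] [Algebra.IsCentral K C] (hC : finrank K C = 3 ^ 2) {γ : C}
    (hγ : γ ∉ Set.range (algebraMap K C)) :
    ∃ (E : Type) (_ : Field E) (_ : GFF E) (_ : Algebra K E) (φ : E →ₐ[K] C) (θ : E),
      φ θ = γ ∧ finrank K E = 3 := by
  obtain ⟨E, _, _, _, _, φ, θ, hθ, -⟩ := H167.Lf.exists_gen (finBasis K C) γ
  refine ⟨E, inferInstance, inferInstance, inferInstance, φ, θ, hθ, ?_⟩
  have h1 : finrank K E = finrank K φ.range :=
    (AlgEquiv.ofInjective φ φ.injective).toLinearEquiv.finrank_eq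
  rw [h1]
  refine H929.finrank_eq_of_ne Nat.prime_three hC ?_ ?_
  · intro h
    have h2 : γ ∈ φ.range := ⟨θ, hθ⟩
    rw [h] at h2
    exact hγ (Algebra.mem_bot.mp h2)
  · intro h
    apply hγ
    have h2 : γ ∈ Subalgebra.center K C := by
      rw [Subalgebra.mem_center_iff]
      intro y
      have h3 : y ∈ φ.range := by rw [h]; exact Algebra.mem_top
      obtain ⟨x, rfl⟩ := h3
      rw [← hθ]
      change φ x * φ θ = φ θ * φ x
      rw [← map_mul, ← map_mul, mul_comm]
    exact Algebra.mem_bot.mp (Algebra.IsCentral.out h2)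

end field

section small

variable {k D : Type} [Field k] [DivisionRing D] [Algebra k D]

/-- The elements `p + u I` close to one. -/
theorem pu_smallF {N : ℕ} (B : Basis (Fin N) k D) (v : Place k) (I : D) {η : ℝ}
    (hη : 0 < η) : ∃ ε : ℝ, 0 < ε ∧ ∀ p u : k, v.abv (p - 1) < ε → v.abv u < ε →
      na B v.abv (algebraMap k D p + algebraMap k D u * I - 1) < η := by
  have h1 := na_nonneg B v.abv (1 : D)
  have h2 := na_nonneg B v.abv I
  refine ⟨η / (na B v.abv (1 : D) + na B v.abv I + 1), by positivity, fun p u hp hu => ?_⟩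
  have e1 : algebraMap k D p + algebraMap k D u * I - 1 = (p - 1) • (1 : D) + u • I := by
    rw [Algebra.smul_def, Algebra.smul_def, map_sub, map_one, mul_one]
    abel
  rw [e1]
  have e2 := na_add_le B v.abv ((p - 1) • (1 : D)) (u • I)
  rw [na_smul, na_smul] at e2
  rw [lt_div_iff₀ (by positivity)] at hp hu
  have hp0 := v.abv.nonneg (p - 1)
  have hu0 := v.abv.nonneg u
  have e3 : v.abv (p - 1) * na B v.abv (1 : D) + v.abv u * na B v.abv I < η := by
    rcases le_total (v.abv (p - 1)) (v.abv u) with hle | hle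
    · have e4 : v.abv (p - 1) * na B v.abv (1 : D) ≤ v.abv u * na B v.abv (1 : D) :=
        mul_le_mul_of_nonneg_right hle h1
      nlinarith
    · have e4 : v.abv u * na B v.abv I ≤ v.abv (p - 1) * na B v.abv I :=
        mul_le_mul_of_nonneg_right hle h2
      nlinarith
  exact e2.trans_lt e3

/-- The quotient of two elements close to one. -/
theorem near_divF {N : ℕ} (B : Basis (Fin N) k D) (v : Place k) {η : ℝ} (hη : 0 < η) :
    ∃ ε : ℝ, 0 < ε ∧ ∀ x y : D, na B v.abv (x - 1) < ε → na B v.abv (y - 1) < ε →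
      na B v.abv (x * y⁻¹ - 1) < η := by
  obtain ⟨C, hC, hmul⟩ := na_mul B v.abv
  obtain ⟨O, hO⟩ : ∃ O : ℝ, O = na B v.abv (1 : D) := ⟨_, rfl⟩
  have hO0 : 0 < O := by rw [hO]; exact na_pos B v.abv one_ne_zero
  have hC0 : 0 < C := by linarith
  refine ⟨min (1 / (2 * C)) (η / (4 * C * O + 1)), by positivity, fun x y hx hy => ?_⟩
  have hx2 := hx.trans_le (min_le_right _ _)
  have hy1 := hy.trans_le (min_le_left _ _)
  have hy2 := hy.trans_le (min_le_right _ _)
  rw [lt_div_iff₀ (by positivity)] at hx2 hy1 hy2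
  have hx0 := na_nonneg B v.abv (x - 1)
  have hy0 := na_nonneg B v.abv (y - 1)
  have hyn : y ≠ 0 := by
    rintro rfl
    rw [zero_sub, na_neg, ← hO] at hy1
    have h1 := hmul (1 : D) 1
    rw [mul_one, ← hO] at h1
    nlinarith
  obtain ⟨Y, hY⟩ : ∃ Y : ℝ, Y = na B v.abv y⁻¹ := ⟨_, rfl⟩
  have hY0 : 0 ≤ Y := by rw [hY]; exact na_nonneg B v.abv _
  have e1 : y⁻¹ = 1 + -((y - 1) * y⁻¹) := by
    rw [sub_mul, mul_inv_cancel₀ hyn, one_mul]
    abel
  have h2 : Y ≤ O + C * na B v.abv (y - 1) * Y := by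
    have h3 := na_add_le B v.abv (1 : D) (-((y - 1) * y⁻¹))
    rw [← e1, na_neg, ← hO, ← hY] at h3
    have h4 := hmul (y - 1) y⁻¹
    rw [← hY] at h4
    linarith
  have h3 : Y ≤ 2 * O := by
    have h4 : C * na B v.abv (y - 1) * Y ≤ Y / 2 := by
      have h5 : C * na B v.abv (y - 1) ≤ 1 / 2 := by linarith
      nlinarith
    linarith
  have e2 : x * y⁻¹ - 1 = (x - 1) * y⁻¹ + -((y - 1) * y⁻¹) := by
    rw [sub_mul, sub_mul, mul_inv_cancel₀ hyn]
    abel
  rw [e2]
  have h4 := na_add_le B v.abv ((x - 1) * y⁻¹) (-((y - 1) * y⁻¹))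
  rw [na_neg] at h4
  have h5 := hmul (x - 1) y⁻¹
  have h6 := hmul (y - 1) y⁻¹
  rw [← hY] at h5 h6
  have h7 : C * na B v.abv (x - 1) * Y ≤ C * na B v.abv (x - 1) * (2 * O) :=
    mul_le_mul_of_nonneg_left h3 (by positivity)
  have h8 : C * na B v.abv (y - 1) * Y ≤ C * na B v.abv (y - 1) * (2 * O) :=
    mul_le_mul_of_nonneg_left h3 (by positivity)
  nlinarith

end small

/-- The elements `p + u I` of norm one close to one in an extension. -/
theorem nu_nearF {k E : Type} [Field k] [Field E] [Algebra k E]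
    {δ p u c : k} (hpu : p ^ 2 - δ * u ^ 2 = 1) {I : E} (hI : I * I = algebraMap k E δ)
    {v : Place k} {w : Place E} (hw : Ab w v) (hc : v.abv c ≤ 1)
    (hp : v.abv (p - 1) < v.abv (c ^ 2)) :
    w.abv (algebraMap k E p + algebraMap k E u * I - 1) < w.abv (algebraMap k E c) := by
  have hγ : w.abv (algebraMap k E c) ≤ 1 := (H73.Sp.val_le_one_iff hw c).mpr hc
  have hγ0 := w.abv.nonneg (algebraMap k E c)
  have h1 : w.abv (algebraMap k E p - 1) < w.abv (algebraMap k E c) ^ 2 := by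
    have h2 := (H73.Sp.val_lt_val_iff hw _ _).mpr hp
    rwa [map_sub, map_one, map_pow, map_pow] at h2
  have h2 : w.abv (algebraMap k E p - 1) < w.abv (algebraMap k E c) :=
    h1.trans_le (pow_le_of_le_one hγ0 hγ two_ne_zero)
  have h3 : w.abv (algebraMap k E p + 1) ≤ 1 := by
    have e1 : algebraMap k E p + 1 = ((algebraMap k E p - 1) + 1) + 1 := by ring
    rw [e1]
    exact (w.nonarch _ _).trans (max_le ((w.nonarch _ _).trans
      (max_le (h2.le.trans hγ) (by rw [map_one]))) (by rw [map_one]))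
  have h4 : w.abv (algebraMap k E u * I) < w.abv (algebraMap k E c) := by
    refine lt_of_pow_lt_pow_left₀ 2 hγ0 ?_
    have e1 : (algebraMap k E u * I) ^ 2 = (algebraMap k E p - 1) * (algebraMap k E p + 1) := by
      have e2 : algebraMap k E (p ^ 2 - δ * u ^ 2) = 1 := by rw [hpu, map_one]
      rw [map_sub, map_mul, map_pow, map_pow, ← hI] at e2
      linear_combination (-1 : E) * e2
    rw [← map_pow w.abv (algebraMap k E u * I), e1, map_mul]
    exact (mul_le_of_le_one_right (w.abv.nonneg _) h3).trans_lt h1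
  have e2 : algebraMap k E p + algebraMap k E u * I - 1 =
      (algebraMap k E p - 1) + algebraMap k E u * I := by ring
  rw [e2]
  exact (w.nonarch _ _).trans_lt (max_lt h2 h4)

/-- Multiplication by a cube. -/
theorem loc_cubeF {K E : Type} [Field K] [Field E] [Algebra K E] (hE : finrank K E = 3)
    {V : Place K} {ν μ : K} (hμ : μ ≠ 0) {γ : ℝ}
    (h : ∃ e : E, V.abv (ν / Algebra.norm K e - 1) < γ) :
    ∃ e : E, V.abv (ν * μ ^ 3 / Algebra.norm K e - 1) < γ := by
  obtain ⟨e, he⟩ := h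
  refine ⟨e * algebraMap K E μ, ?_⟩
  rw [map_mul, Algebra.norm_algebraMap, hE, mul_div_mul_right _ _ (pow_ne_zero 3 hμ)]
  exact he

section main

variable {k K D L K' C : Type} [Field k] [Field K] [StarRing K]
    [DivisionRing D] [StarRing D] [Algebra k K] [Algebra k D] [Algebra K D] [IsScalarTower k K D]
    [Field L] [Algebra k L] [Field K'] [StarRing K']
    [Algebra K K'] [DivisionRing C] [StarRing C] [Algebra L K'] [Algebra L C] [Algebra K' C]
    [IsScalarTower L K' C] {d : kˣ} {s : K} {t : D} {a : kˣ} {T : L} {jC : C →+* D}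

theorem nu_starF (hS : SetF k K D d s)
    (hSC : SetF L K' C (incF k L d) (algebraMap K K' s)) (h : IsCentF k K D L K' C t a T jC)
    (ht : t ∈ XaF D a) {p u : k} (hpu : p ^ 2 - (a * d : k) * u ^ 2 = 1) :
    (kk k K K' p + kk k K K' u * om K' s T) * star (kk k K K' p + kk k K K' u * om K' s T) =
      1 := by
  have jν : jC (algebraMap K' C (kk k K K' p + kk k K K' u * om K' s T)) =
      algebraMap k D p + algebraMap k D u * (algebraMap K D s * t) := H976.FF.jC_nu h p u
  apply (algebraMap K' C).injective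
  apply h.inj
  rw [map_mul, map_mul, ← star_algF hSC, h.star, jν, H976.FF.star_pu hS ht,
    H976.FF.pu_mul hS ht hpu, map_one, map_one]

/-- A larger set of exceptional places. -/
theorem goodJF_mono [GFF k] [GFF K'] [Algebra k K'] {CC : Cub K' C} {δ : kˣ}
    {S S' : Set (Place k)} (hSS : S ⊆ S') {ν : K'} {j : D} {γ : C} {a1 a2 a3 : k}
    (h : GoodJF k K CC jC δ t S ν j γ a1 a2 a3) : GoodJF k K CC jC δ t S' ν j γ a1 a2 a3 :=
  { ne := h.ne
    wt := h.wt
    has := h.has
    gen := h.gen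
    ram := fun F _ _ _ β hβ v hv ω hω => h.ram F β hβ v (fun h' => hv (hSS h')) ω hω
    loc := fun E _ _ _ hE θ hθ hg v hv V hV => h.loc E hE θ hθ hg v (fun h' => hv (hSS h')) V hV }

/-- **From an antisymmetric element with good local properties to an element of given reduced
norm in the subgroup.** -/
theorem exists_y_goodF [GFF k] [GFF K'] [Algebra k K'] [IsScalarTower k K K']
    (hS : SetF k K D d s) (hSC : SetF L K' C (incF k L d) (algebraMap K K' s))
    (h : IsCentF k K D L K' C t a T jC) (hdC : finrank K' C = 3 ^ 2) (ht : t ∈ XaF D a)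
    (htK : ∀ c : K, algebraMap K D c ≠ t) (CC : Cub K' C) (h3 : (3 : k) ≠ 0) {N : ℕ}
    (B : Basis (Fin N) k D) {Q : Set D} (hdiv : ∀ x ∈ Q, ∀ y ∈ Q, x * y⁻¹ ∈ Q)
    {T0 : Finset (Place k)} {ε0 : ℝ} (hε0 : 0 < ε0) (hQ : HQ1F k B T0 ε0 Q) :
    ∃ S1 : Set (Place k), S1.Finite ∧
      ∀ S : Set (Place k), S.Finite → S1 ⊆ S → ∀ ε : Place k → ℝ, (∀ v, 0 < ε v) →
      ∃ c : Place k → ℝ, (∀ v, 0 < c v) ∧ ∀ (j : D) (γ : C) (e1 e2 e3 p u : k),
        GoodJF k K CC jC (a * d) t S (kk k K K' p + kk k K K' u * om K' s T) j γ e1 e2 e3 →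
        p ^ 2 - (a * d : k) * u ^ 2 = 1 →
        (∀ v ∈ S, v.abv (p - 1) < c v ∧ v.abv u < c v) →
        ∃ y : C, y * star y = 1 ∧ CC.N y = kk k K K' p + kk k K K' u * om K' s T ∧
          jC y ∈ Q ∧ ∀ v ∈ S, na B v.abv (jC y - 1) < ε v := by
  classical
  have i1 := hS.fin
  have i2 := hS.cen
  have i3 := hSC.fin
  have i4 := hSC.cen
  have h2 := hS.two_ne
  have h2K : (2 : K) ≠ 0 := two_neK hS
  have h3K : (3 : K') ≠ 0 := three_neK (K := K') (k := K) (three_neK h3)
  have hkK : ∀ c : k, algebraMap k K' c = kk k K K' c := fun c =>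
    IsScalarTower.algebraMap_apply k K K' c
  have f1 : FiniteDimensional k K := FiniteDimensional.of_finrank_pos (by rw [hS.rank]; norm_num)
  have f2 : FiniteDimensional K K' := FiniteDimensional.of_finrank_pos (by rw [h.rkK]; norm_num)
  have f3 : FiniteDimensional k K' := FiniteDimensional.trans k K K'
  have s1 : Algebra.IsSeparable k K :=
    H511.FF.sep_of_deg Nat.prime_two (by exact_mod_cast h2) hS.rank
  have s2 : Algebra.IsSeparable K K' :=
    H511.FF.sep_of_deg Nat.prime_two (by exact_mod_cast h2K) h.rkK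
  have s3 : Algebra.IsSeparable k K' := Algebra.IsSeparable.trans k K K'
  obtain ⟨S2, hTS2, η1, hη1, hpuQ⟩ := H704.HQ.exists_pu_mem hS B ht htK hε0 hQ
  have hδ0 : (a * d : k) ≠ 0 := mul_ne_zero a.ne_zero d.ne_zero
  refine ⟨(S2 : Set (Place k)), S2.finite_toSet, ?_⟩
  intro S hSf hSS ε hε
  -- the constants
  choose ε' hε' hprod using fun v : Place k => near_divF B v (hε v)
  choose εμ hεμ hμnear using fun v : Place k =>
    pu_smallF B v (algebraMap K D s * t) (hε' v)
  obtain ⟨c, hc0, hcub⟩ := H496.CF.exists_cubeF h2 h3 (a * d : k) hδ0 hSf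
    (fun v => min (εμ v) η1) (fun v => lt_min (hεμ v) hη1)
  refine ⟨c, hc0, ?_⟩
  intro j γ e1 e2 e3 p u hG hpu hnear
  have hj0 := hG.ne
  have hW := hG.wt
  have hEj := hG.has
  -- the fields
  have hγn : ∀ c : K', algebraMap K' C c ≠ γ := hG.gen
  obtain ⟨E, _, _, _, φ, θ, hθ, hE⟩ := exists_fieldF hdC (γ := γ) (by
    rintro ⟨c, hc⟩
    exact hγn c hc)
  have hθj : jC (φ θ) = j * j := by rw [hθ, hEj.sq]
  have hθn : φ θ ∉ Set.range (algebraMap K' C) := by
    rw [hθ]
    rintro ⟨c, hc⟩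
    exact hγn c hc
  have hgenE : ∀ c : K', algebraMap K' E c ≠ θ := by
    intro c hc
    exact hγn c (by rw [← hθ, ← hc, AlgHom.commutes])
  let _ : Algebra k E := ((algebraMap K' E).comp (kk k K K')).toAlgebra
  have hkE : ∀ c : k, algebraMap k E c = algebraMap K' E (kk k K K' c) := fun c => rfl
  have _ : IsScalarTower k K' E := IsScalarTower.of_algebraMap_eq fun c => by rw [hkE, hkK]
  have f4 : FiniteDimensional K' E := FiniteDimensional.of_finrank_pos (by rw [hE]; norm_num)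
  have f5 : FiniteDimensional k E := FiniteDimensional.trans k K' E
  have s4 : Algebra.IsSeparable K' E :=
    H511.FF.sep_of_deg Nat.prime_three (by exact_mod_cast h3K) hE
  have s5 : Algebra.IsSeparable k E := Algebra.IsSeparable.trans k K' E
  have hkφ : ∀ c : k, jC (φ (algebraMap k E c)) = algebraMap k D c := by
    intro c
    rw [hkE, AlgHom.commutes, kk, RingHom.comp_apply, h.jK, ← IsScalarTower.algebraMap_apply]
  obtain ⟨F, _, _, _, _, ι, β, fr, hgen⟩ := H704.HQ.exists_qfr hS ht hj0 hW.st hW.an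
  let φ' : E →ₗ[k] D :=
    { toFun := fun z => jC (φ z)
      map_add' := fun x y => by rw [map_add, map_add]
      map_smul' := fun c x => by
        rw [Algebra.smul_def, map_mul, map_mul, hkφ, RingHom.id_apply, Algebra.smul_def] }
  -- the constants which depend on `j`
  choose cj hcj0 hcj using fun v : Place k =>
    H496.NF.near_of_valF B φ' v (lt_min (hε' v) hε0)
  have hc2 : ∀ v : Place k, ∃ c2 : k, c2 ≠ 0 ∧ v.abv c2 ≤ 1 ∧ v.abv c2 ≤ v.abv (cj v) := by
    intro v
    by_cases hcv : v.abv (cj v) ≤ 1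
    · exact ⟨cj v, hcj0 v, hcv, le_rfl⟩
    · exact ⟨1, one_ne_zero, by rw [map_one], by rw [map_one]; exact (not_le.mp hcv).le⟩
  choose c2 hc20 hc21 hc2j using hc2
  obtain ⟨P, U, hPU, hPUn, hPU'⟩ := hcub p u hpu hnear (fun v => v.abv (c2 v ^ 2))
    (fun v => v.abv.pos (pow_ne_zero 2 (hc20 v)))
  obtain ⟨p', hp'⟩ : ∃ p' : k, p' = p * (P ^ 3 + 3 * (a * d : k) * P * U ^ 2) +
      (a * d : k) * u * (3 * P ^ 2 * U + (a * d : k) * U ^ 3) := ⟨_, rfl⟩
  obtain ⟨u', hu'⟩ : ∃ u' : k, u' = p * (3 * P ^ 2 * U + (a * d : k) * U ^ 3) +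
      u * (P ^ 3 + 3 * (a * d : k) * P * U ^ 2) := ⟨_, rfl⟩
  rw [← hp', ← hu'] at hPU'
  have hpu' : p' ^ 2 - (a * d : k) * u' ^ 2 = 1 := by
    have g1 : (p ^ 2 - (a * d : k) * u ^ 2) * (P ^ 2 - (a * d : k) * U ^ 2) ^ 3 = 1 := by
      rw [hpu, hPU, one_pow, mul_one]
    rw [hp', hu']
    linear_combination g1
  obtain ⟨ν, hν⟩ : ∃ ν : K', ν = kk k K K' p + kk k K K' u * om K' s T := ⟨_, rfl⟩
  obtain ⟨μ, hμ⟩ : ∃ μ : K', μ = kk k K K' P + kk k K K' U * om K' s T := ⟨_, rfl⟩
  have hom : om K' s T * om K' s T = kk k K K' (a * d) := om_sq hS h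
  have hνμ : kk k K K' p' + kk k K K' u' * om K' s T = ν * μ ^ 3 := by
    rw [hν, hμ, hp', hu']
    simp only [map_add, map_mul, map_pow, map_ofNat] at hom ⊢
    linear_combination (-((kk k K K' p + kk k K K' u * om K' s T) *
      (3 * kk k K K' P * kk k K K' U ^ 2 + kk k K K' U ^ 3 * om K' s T) +
      kk k K K' u * (3 * kk k K K' P ^ 2 * kk k K K' U +
        kk k K K' a * kk k K K' d * kk k K K' U ^ 3))) * hom
  have hμs : μ * star μ = 1 := by
    rw [hμ]
    exact nu_starF hS hSC h ht hPU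
  have hμ0 : μ ≠ 0 := left_ne_zero_of_mul_eq_one hμs
  -- the local norms
  have hI : om K' s T * om K' s T = algebraMap k K' (a * d : k) := by rw [hom, hkK]
  have hcay : θ ^ 3 - algebraMap K' E (algebraMap k K' e1) * θ ^ 2 +
      algebraMap K' E (algebraMap k K' e2) * θ - algebraMap K' E (algebraMap k K' e3) = 0 := by
    apply H976.FF.phi_ext (φ := φ)
    have g1 := CC.cayley γ
    rw [hEj.T, hEj.S, hEj.N, Algebra.smul_def, Algebra.smul_def, Algebra.smul_def, mul_one] at g1
    rw [map_sub, map_add, map_sub, map_mul, map_mul, map_pow, map_pow, AlgHom.commutes,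
      AlgHom.commutes, AlgHom.commutes, hθ, hkK, hkK, hkK, map_zero, pow_succ, pow_two]
    exact g1
  have hloc : ∀ V : Place K', ∃ e : E, V.abv (ν * μ ^ 3 / Algebra.norm K' e - 1) < 1 := by
    intro V
    obtain ⟨v, hVv'⟩ := Hey.H63.exists_below (k := k) V
    have hVv : Ab V v := hVv'
    by_cases hv : v ∈ S
    · refine ⟨1, ?_⟩
      rw [map_one, div_one]
      have g1 := nu_nearF (c := c2 v) hpu' hI hVv (hc21 v) (hPU' v hv).1
      rw [hkK, hkK, hνμ] at g1
      exact g1.trans_le (hVv.le_one (hc21 v))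
    · refine loc_cubeF hE hμ0 ?_
      rw [hν]
      exact hG.loc E hE θ hcay hgenE v hv V hVv
  obtain ⟨x, p0, p1, hx1, hx2, hx3, hx4⟩ := H976.FF.exists_y_of_locF hS hSC h hdC ht CC h3 hj0
    hW.st hW.an hkE hE hθj hθn fr hgen hpu' (by rw [hνμ]; exact hloc) hSf c2
    (fun v _ => ⟨hc20 v, hc21 v⟩) (fun v hv => (hPU' v hv).1)
  -- the element belongs to the subgroup
  have hβ : (β : F) ^ 3 - algebraMap k F e1 * (β : F) ^ 2 + algebraMap k F e2 * (β : F) -
      algebraMap k F e3 = 0 := by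
    have hιi : Function.Injective ι := (ι : F →+* D).injective
    apply hιi
    have g1 := cay h hEj
    have g2 : ι (β : F) = j ^ 2 := by rw [← fr.jj, pow_two]
    rw [map_sub, map_add, map_sub, map_mul, map_mul, map_pow, map_pow, AlgHom.commutes,
      AlgHom.commutes, AlgHom.commutes, g2, g1, map_zero, Algebra.smul_def, Algebra.smul_def,
      Algebra.smul_def, mul_one]
    abel
  have hnx : ∀ v ∈ S, na B v.abv (jC (φ x) - 1) < min (ε' v) ε0 := by
    intro v hv
    have g2 := hcj v (x - 1) fun w hw => ((hx4 v hv).1 w hw).trans_le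
      ((H73.Sp.val_le_val_iff hw _ _).mpr (hc2j v))
    have g3 : φ' (x - 1) = jC (φ x) - 1 := by
      change jC (φ (x - 1)) = _
      rw [map_sub, map_sub, map_one, map_one]
    rwa [g3] at g2
  have hxQ : jC (φ x) ∈ Q := by
    refine hQ F ι _ _ _ _ _ _ _ _ _ hx3 (fun ω hω => ?_) (fun v hv i => ?_)
    · obtain ⟨v, hωv'⟩ := Hey.H63.exists_below (k := k) ω
      have hωv : Ab ω v := hωv'
      by_cases hvS : v ∈ S
      · exact ((hx4 v hvS).2 ω hωv).trans_le (hωv.le_one (hc21 v))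
      · exact absurd (hG.ram F β hβ v hvS ω hωv) hω
    · exact (coord_le_na B v.abv _ i).trans_lt
        ((hnx v (hSS (hTS2 hv))).trans_le (min_le_right _ _))
  have hμQ : jC (algebraMap K' C μ) ∈ Q := by
    rw [hμ, H976.FF.jC_nu h P U]
    exact hpuQ P U (by rw [Units.val_mul]; exact hPU) fun v hv =>
      ((hPUn v (hSS hv)).1).trans_le (min_le_right _ _)
  have hyE : jC (φ x * algebraMap K' C μ⁻¹) = jC (φ x) * (jC (algebraMap K' C μ))⁻¹ := by
    rw [map_mul, map_inv₀, map_inv₀]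
  refine ⟨φ x * algebraMap K' C μ⁻¹, ?_, ?_, ?_, ?_⟩
  · have g1 : μ⁻¹ * star μ⁻¹ = 1 := by
      rw [star_inv₀, ← mul_inv, hμs, inv_one]
    rw [star_mul, star_algF hSC, mul_assoc, ← mul_assoc (algebraMap K' C μ⁻¹), ← map_mul, g1,
      map_one, one_mul, hx2]
  · rw [CC.N_mul, hx1, hνμ, (cub_scalar CC μ⁻¹).2.2, ← hν, inv_pow, mul_assoc,
      mul_inv_cancel₀ (pow_ne_zero 3 hμ0), mul_one]
  · rw [hyE]
    exact hdiv _ hxQ _ hμQ
  · intro v hv
    rw [hyE]
    refine hprod v _ _ ((hnx v hv).trans_le (min_le_left _ _)) ?_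
    rw [hμ, H976.FF.jC_nu h P U]
    exact hμnear v P U ((hPUn v hv).1.trans_le (min_le_left _ _))
      ((hPUn v hv).2.trans_le (min_le_left _ _))

end main

end Vale.Agent.P011.H872.FF
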