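import Vale.Agent.P011.H872.CopDeg
import Vale.Agent.P011.H872.FF.PenF

/-!
# The pencil of `j` and `4 j³` is nondegenerate, characteristic different from two and three
-/

open Polynomial

set_option linter.unusedSectionVars false

namespace Vale.Agent.P011.H872.FF

open Vale.Agent.P011.H359 (sp Cop pwr PE1 PE2 PE3 pwr_eval)

variable {k D Ω : Type} [Field k] [Ring D] [Algebra k D] [Field Ω] [Algebra k Ω]

/-- The power sums of the pencil. -/
theorem pwr_map [Infinite k] {r0 r1 r2 : Ω} (tr : D →ₗ[k] k) (j : D)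
    (hp : ∀ n : ℕ, algebraMap k Ω (tr (j ^ (2 * n))) = r0 ^ n + r1 ^ n + r2 ^ n) (m : ℕ) :
    (pwr tr j ((4 : k) • j ^ 3) (2 * m)).map (algebraMap k Ω) =
      sp r0 ^ m + sp r1 ^ m + sp r2 ^ m := by
  apply eq_of_infinite_eval_eq
  refine Set.Infinite.mono ?_ (Set.infinite_range_of_injective (algebraMap k Ω).injective)
  rintro _ ⟨T, rfl⟩
  change eval _ _ = eval _ _
  rw [eval_map, eval₂_at_apply, pwr_eval, pow_pencil, tr_aeval tr j hp, eval_add, eval_add,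
    eval_pow, eval_pow, eval_pow, sp_eval, sp_eval, sp_eval]
  simp only [map_pow, map_mul, map_add, map_one, aeval_X, aeval_C, map_ofNat]

/-- **The pencil `(j, 4 j³)` is nondegenerate.** -/
theorem cop_deg [Infinite k] [IsAlgClosed Ω] (h2 : (2 : k) ≠ 0) (h3 : (3 : k) ≠ 0) {r0 r1 r2 : Ω}
    (h01 : r0 ≠ r1) (h02 : r0 ≠ r2)
    (h12 : r1 ≠ r2) (hr0 : r0 ≠ 0) (hr1 : r1 ≠ 0) (hr2 : r2 ≠ 0)
    (hne : (r0 + r1 + r2) ^ 2 ≠ 4 * (r0 * r1 + r0 * r2 + r1 * r2)) (tr : D →ₗ[k] k) (j : D)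
    (hp : ∀ n : ℕ, algebraMap k Ω (tr (j ^ (2 * n))) = r0 ^ n + r1 ^ n + r2 ^ n) :
    Cop tr j ((4 : k) • j ^ 3) := by
  have h2Ω : (2 : Ω) ≠ 0 := by
    rw [← map_ofNat (algebraMap k Ω) 2]
    exact (_root_.map_ne_zero _).mpr h2
  have h3Ω : (3 : Ω) ≠ 0 := by
    rw [← map_ofNat (algebraMap k Ω) 3]
    exact (_root_.map_ne_zero _).mpr h3
  have h6Ω : (6 : Ω) ≠ 0 := by
    rw [show (6 : Ω) = 2 * 3 by norm_num]
    exact mul_ne_zero h2Ω h3Ω
  have e1 : (PE1 tr j ((4 : k) • j ^ 3)).map (algebraMap k Ω) = sp r0 + sp r1 + sp r2 := by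
    have := pwr_map tr j hp 1
    rw [pow_one, pow_one, pow_one] at this
    exact this
  have p4 := pwr_map tr j hp 2
  have p6 := pwr_map tr j hp 3
  have i2 : (C (1 / 2) : k[X]).map (algebraMap k Ω) * 2 = 1 := by
    rw [map_C, ← C_ofNat, ← C_mul, map_div₀, map_one, map_ofNat, one_div,
      inv_mul_cancel₀ h2Ω, C_1]
  have i6 : (C (1 / 6) : k[X]).map (algebraMap k Ω) * 6 = 1 := by
    rw [map_C, ← C_ofNat, ← C_mul, map_div₀, map_one, map_ofNat, one_div,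
      inv_mul_cancel₀ h6Ω, C_1]
  have e2 : (PE2 tr j ((4 : k) • j ^ 3)).map (algebraMap k Ω) =
      sp r0 * sp r1 + sp r0 * sp r2 + sp r1 * sp r2 := by
    rw [PE2, Polynomial.map_mul, Polynomial.map_sub, Polynomial.map_pow, e1, p4]
    linear_combination (sp r0 * sp r1 + sp r0 * sp r2 + sp r1 * sp r2) * i2
  have e3 : (PE3 tr j ((4 : k) • j ^ 3)).map (algebraMap k Ω) = sp r0 * sp r1 * sp r2 := by
    rw [PE3, Polynomial.map_mul, Polynomial.map_add, Polynomial.map_sub, Polynomial.map_mul,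
      Polynomial.map_mul, Polynomial.map_mul, Polynomial.map_pow, Polynomial.map_ofNat,
      Polynomial.map_ofNat, e1, p4, p6]
    linear_combination (sp r0 * sp r1 * sp r2) * i6
  exact deg_res h2Ω h3Ω h01 h02 h12 hr0 hr1 hr2 hne e1 e2 e3

end Vale.Agent.P011.H872.FF
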