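import Vale.Agent.P011.H872.FF.FrmF
import Vale.Agent.P011.H872.FF.CopDegF
import Vale.Agent.P011.H872.FF.PickB1F
import Vale.Agent.P011.H14.Diag

/-!
An antisymmetric element anticommuting with a symmetric square root, whose square generates a
cubic extension of the base field, with coefficients in general position.
-/

open Module Polynomial

set_option linter.unusedSectionVars false

namespace Vale.Agent.P011.H872.FF

open Vale.Agent.P011.H305
open Vale.Agent.P011.H63.FB (incF)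
open Vale.Agent.P011.H775 (Cub)
open Vale.Agent.P011.H359 (semi_coeff sp Cop pwr PE1 PE2 PE3 pwr_eval)

section wt

variable {D : Type} [DivisionRing D] [StarRing D] {t : D}

theorem wt_inv {w : D} (hw : Wt t w) : Wt t w⁻¹ := by
  by_cases hw0 : w = 0
  · rw [hw0, inv_zero, ← hw0]
    exact hw
  · exact ⟨by rw [star_inv₀, hw.st, inv_neg], inv_anti hw0 hw.an⟩

end wt

section frm

variable {k K D L K' C : Type} [Field k] [Field K] [StarRing K]
  [DivisionRing D] [StarRing D] [Algebra k K] [Algebra k D] [Algebra K D] [IsScalarTower k K D]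
  [Field L] [Algebra k L] [Field K'] [StarRing K']
  [Algebra K K'] [DivisionRing C] [StarRing C] [Algebra L K'] [Algebra L C] [Algebra K' C]
  [IsScalarTower L K' C] {d : kˣ} {s : K} {a : kˣ} {t : D} {T : L} {ι : C →+* D}

theorem iota_kk (h : IsCentF k K D L K' C t a T ι) (c : k) :
    ι (algebraMap K' C (kk k K K' c)) = algebraMap k D c := by
  rw [kk, RingHom.comp_apply, h.jK, ← IsScalarTower.algebraMap_apply]

theorem iota_smul (h : IsCentF k K D L K' C t a T ι) (c : k) (x : C) :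
    ι (kk k K K' c • x) = c • ι x := by
  rw [Algebra.smul_def, map_mul, iota_kk h, Algebra.smul_def]

/-- **(G2')** -/
theorem not_center (h3 : (3 : k) ≠ 0) (h : IsCentF k K D L K' C t a T ι) {CC : Cub K' C} {w : D} {γ : C}
    {e1 e2 e3 : k} (he : HasE k K CC ι w γ e1 e2 e3) (hw : ∀ c : k, algebraMap k D c ≠ w * w) :
    ∀ c : K', algebraMap K' C c ≠ γ := by
  intro c hc
  have h3' : (3 : K') ≠ 0 := three_neK (K := K') (k := K) (three_neK h3)
  have h1 := he.T
  rw [← hc, Algebra.algebraMap_eq_smul_one, map_smul, CC.T_one, smul_eq_mul] at h1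
  have h2 : c = kk k K K' (e1 / 3) := by
    rw [map_div₀, map_ofNat, ← h1, mul_div_cancel_right₀ _ h3']
  refine hw (e1 / 3) ?_
  rw [← he.sq, ← hc, h2, iota_kk h]

/-- The Cayley equation of the square. -/
theorem cay (h : IsCentF k K D L K' C t a T ι) {CC : Cub K' C} {w : D} {γ : C} {e1 e2 e3 : k}
    (he : HasE k K CC ι w γ e1 e2 e3) :
    (w ^ 2) ^ 3 = e1 • (w ^ 2) ^ 2 - e2 • w ^ 2 + e3 • (1 : D) := by
  have h1 := congrArg ι (CC.cayley γ)
  rw [map_sub, map_add, map_sub, map_zero] at h1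
  have hT := he.T
  have hSs := he.S
  have hN := he.N
  rw [hT, hSs, hN, iota_smul h, iota_smul h, iota_smul h, map_one, map_mul, map_mul,
    he.sq] at h1
  have e0' : w * w = w ^ 2 := (pow_two _).symm
  have e1' : w ^ 2 * w ^ 2 * w ^ 2 = (w ^ 2) ^ 3 := by
    rw [pow_succ (w ^ 2) 2, pow_two (w ^ 2)]
  have e2' : w ^ 2 * w ^ 2 = (w ^ 2) ^ 2 := (pow_two _).symm
  rw [e0', e1', e2'] at h1
  have h2 := sub_eq_zero.mp h1
  rw [← h2]
  abel

/-- Independence of the powers of the square. -/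
theorem indep (h : IsCentF k K D L K' C t a T ι) [FiniteDimensional K' C]
    (hdC : finrank K' C = 3 ^ 2) {w : D} {γ : C} (hγ : ι γ = w * w)
    (hc : ∀ c : K', algebraMap K' C c ≠ γ) (x y z : k)
    (h0 : x • (1 : D) + y • w ^ 2 + z • (w ^ 2) ^ 2 = 0) : x = 0 ∧ y = 0 ∧ z = 0 := by
  have h1 : kk k K K' z • (γ * γ) + kk k K K' y • γ + kk k K K' x • (1 : C) = 0 := by
    apply h.inj
    rw [map_add, map_add, iota_smul h, iota_smul h, iota_smul h, map_mul, map_one, map_zero, hγ,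
      ← h0, pow_two (w ^ 2), pow_two w]
    abel
  obtain ⟨g1, g2, g3⟩ := H521.no_quad hdC (fun hr => by
    obtain ⟨c, hc'⟩ := hr
    exact hc c hc') h1
  exact ⟨(_root_.map_eq_zero _).mp g3, (_root_.map_eq_zero _).mp g2, (_root_.map_eq_zero _).mp g1⟩

variable (hS : SetF k K D d s) (hSC : SetF L K' C (incF k L d) (algebraMap K K' s))
  (h : IsCentF k K D L K' C t a T ι) (hdC : finrank K' C = 3 ^ 2) (ht : t ∈ XaF D a)
  (CC : Cub K' C)

include hS hSC h hdC ht

/-- **(G2)** -/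
theorem exists_base (h3 : (3 : k) ≠ 0) (hw : ∃ w : D, star w = -w ∧ w * t = -(t * w) ∧
    ∀ c : k, algebraMap k D c ≠ w * w) :
    ∃ (j : D) (γ : C) (e1 e2 e3 : k), j ≠ 0 ∧ Wt t j ∧ HasE k K CC ι j γ e1 e2 e3 ∧
      e1 ^ 2 ≠ 4 * e2 ∧ ∀ c : k, algebraMap k D c ≠ j * j := by
  have i3 := hSC.fin
  obtain ⟨w, hws, hwt, hwk⟩ := hw
  have hw0 : w ≠ 0 := by
    rintro rfl
    exact hwk 0 (by rw [map_zero, mul_zero])
  have hW : Wt t w := ⟨hws, hwt⟩
  obtain ⟨γ, e1, e2, e3, he⟩ := exists_E hS hSC h hdC ht CC hw0 hW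
  have hnc := not_center h3 h he hwk
  obtain ⟨p, hp, f1, f2, f3, hf, hpk, hne⟩ := pick_b1 hS.two_ne h3 (cay h he)
    (indep h hdC he.sq hnc)
  have hpW : Wt t p := by
    rcases hp with rfl | rfl | rfl
    · exact hW
    · exact wt_inv hW
    · have e : (1 + w ^ 2) * w = w + w ^ 3 := by rw [add_mul, one_mul, ← pow_succ]
      rw [e]
      exact hW.add hW.cube
  have hpk' : ∀ c : k, algebraMap k D c ≠ p * p := fun c => by
    rw [← pow_two]
    exact hpk c
  have hp0 : p ≠ 0 := by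
    rintro rfl
    exact hpk' 0 (by rw [map_zero, mul_zero])
  obtain ⟨γ', g1, g2, g3, hg⟩ := exists_E hS hSC h hdC ht CC hp0 hpW
  refine ⟨p, γ', g1, g2, g3, hp0, hpW, hg, ?_, hpk'⟩
  have hnc' := not_center h3 h hg hpk'
  have h1 := cay h hg
  have h2 : (f3 - g3) • (1 : D) + -(f2 - g2) • p ^ 2 + (f1 - g1) • (p ^ 2) ^ 2 = 0 := by
    have h3 : f1 • (p ^ 2) ^ 2 - f2 • p ^ 2 + f3 • (1 : D) -
        (g1 • (p ^ 2) ^ 2 - g2 • p ^ 2 + g3 • (1 : D)) = 0 := by
      rw [← hf, ← h1, sub_self]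
    rw [← h3, sub_smul, neg_smul, sub_smul, sub_smul]
    abel
  obtain ⟨-, h4, h5⟩ := indep h hdC hg.sq hnc' _ _ _ h2
  have h6 : f1 = g1 := sub_eq_zero.mp h5
  have h7 : f2 = g2 := sub_eq_zero.mp (neg_eq_zero.mp h4)
  rw [← h6, ← h7]
  exact hne

end frm

/-- Three different roots of a cubic polynomial determine its coefficients. -/
theorem vieta {Ω : Type} [Field Ω] {a1 a2 a3 r0 r1 r2 : Ω} (h01 : r0 ≠ r1) (h02 : r0 ≠ r2)
    (h12 : r1 ≠ r2) (g0 : r0 ^ 3 - a1 * r0 ^ 2 + a2 * r0 - a3 = 0)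
    (g1 : r1 ^ 3 - a1 * r1 ^ 2 + a2 * r1 - a3 = 0)
    (g2 : r2 ^ 3 - a1 * r2 ^ 2 + a2 * r2 - a3 = 0) :
    a1 = r0 + r1 + r2 ∧ a2 = r0 * r1 + r0 * r2 + r1 * r2 ∧ a3 = r0 * r1 * r2 := by
  have q1 : r0 ^ 2 + r0 * r1 + r1 ^ 2 - a1 * (r0 + r1) + a2 = 0 := by
    refine (mul_eq_zero.mp ?_).resolve_left (sub_ne_zero.mpr h01)
    linear_combination g0 - g1
  have q2 : r0 ^ 2 + r0 * r2 + r2 ^ 2 - a1 * (r0 + r2) + a2 = 0 := by
    refine (mul_eq_zero.mp ?_).resolve_left (sub_ne_zero.mpr h02)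
    linear_combination g0 - g2
  have q3 : r0 + r1 + r2 - a1 = 0 := by
    refine (mul_eq_zero.mp ?_).resolve_left (sub_ne_zero.mpr h12)
    linear_combination q1 - q2
  have e1 : a1 = r0 + r1 + r2 := by linear_combination -q3
  have e2 : a2 = r0 * r1 + r0 * r2 + r1 * r2 := by
    rw [e1] at q1
    linear_combination q1
  refine ⟨e1, e2, ?_⟩
  rw [e1, e2] at g0
  linear_combination -g0

/-- A separable cubic polynomial has three different roots in an algebraically closed field. -/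
theorem three_roots {k Ω : Type} [Field k] [Field Ω] [IsAlgClosed Ω] [Algebra k Ω] {P : k[X]}
    (hP : P.Separable) (hd : P.natDegree = 3) :
    ∃ r0 r1 r2 : Ω, r0 ≠ r1 ∧ r0 ≠ r2 ∧ r1 ≠ r2 ∧ aeval r0 P = 0 ∧ aeval r1 P = 0 ∧
      aeval r2 P = 0 := by
  classical
  have hcard : Fintype.card (P.rootSet Ω) = 3 := by
    rw [Polynomial.card_rootSet_eq_natDegree hP (IsAlgClosed.splits _), hd]
  let ee : Fin 3 ≃ (P.rootSet Ω) := (Fintype.equivFinOfCardEq hcard).symm
  have hne : ∀ i j, i ≠ j → (ee i : Ω) ≠ ee j := fun i j hij h =>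
    hij (ee.injective (Subtype.ext h))
  exact ⟨ee 0, ee 1, ee 2, hne _ _ (by decide), hne _ _ (by decide), hne _ _ (by decide),
    (Polynomial.mem_rootSet.mp (ee 0).2).2, (Polynomial.mem_rootSet.mp (ee 1).2).2,
    (Polynomial.mem_rootSet.mp (ee 2).2).2⟩

section frm

variable {k K D L K' C : Type} [Field k] [Field K] [StarRing K]
  [DivisionRing D] [StarRing D] [Algebra k K] [Algebra k D] [Algebra K D] [IsScalarTower k K D]
  [Field L] [Algebra k L] [Field K'] [StarRing K']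
  [Algebra K K'] [DivisionRing C] [StarRing C] [Algebra L K'] [Algebra L C] [Algebra K' C]
  [IsScalarTower L K' C] {d : kˣ} {s : K} {a : kˣ} {t : D} {T : L} {ι : C →+* D}

/-- **(G3)** -/
theorem cop_base [Infinite k] (h2 : (2 : k) ≠ 0) (h3 : (3 : k) ≠ 0)
    (h : IsCentF k K D L K' C t a T ι) [FiniteDimensional K' C]
    (hdC : finrank K' C = 3 ^ 2) (CC : Cub K' C) {tr : D →ₗ[k] k}
    (htr : ∀ (x : C) (e : k), CC.T x = kk k K K' e → tr (ι x) = e) {j : D} {γ : C}
    {e1 e2 e3 : k} (he : HasE k K CC ι j γ e1 e2 e3) (hne : e1 ^ 2 ≠ 4 * e2)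
    (hjk : ∀ c : k, algebraMap k D c ≠ j * j) : Cop tr j ((4 : k) • j ^ 3) := by
  have h3' : (3 : K') ≠ 0 := three_neK (K := K') (k := K) (three_neK h3)
  have hnc := not_center h3 h he hjk
  have hnr : γ ∉ Set.range (algebraMap K' C) := fun ⟨c, hc⟩ => hnc c hc
  -- the polynomial
  obtain ⟨P, hPd⟩ : ∃ P : k[X], P = X ^ 3 - Polynomial.C e1 * X ^ 2 + Polynomial.C e2 * X -
    Polynomial.C e3 := ⟨_, rfl⟩
  have hPm : P.map (kk k K K') = H14.rcp CC γ := by
    rw [hPd, H14.rcp, he.T, he.S, he.N]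
    simp only [Polynomial.map_sub, Polynomial.map_add, Polynomial.map_mul, Polynomial.map_pow,
      Polynomial.map_X, Polynomial.map_C]
  have hsep : P.Separable := by
    rw [← Polynomial.separable_map (kk k K K'), hPm]
    exact H14.rcp_separable CC hdC h3' hnr
  have hdeg : P.natDegree = 3 := by
    rw [← Polynomial.natDegree_map (kk k K K'), hPm, H14.rcp_natDegree]
  -- the roots
  obtain ⟨r0, r1, r2, h01, h02, h12, g0, g1, g2⟩ :=
    three_roots (Ω := AlgebraicClosure k) hsep hdeg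
  have hr : ∀ r : AlgebraicClosure k, aeval r P = 0 → r ^ 3 - algebraMap k _ e1 * r ^ 2 +
      algebraMap k _ e2 * r - algebraMap k _ e3 = 0 := by
    intro r hr
    rw [← hr, hPd]
    simp only [map_sub, map_add, map_mul, map_pow, aeval_X, aeval_C]
  obtain ⟨v1, v2, v3⟩ := vieta h01 h02 h12 (hr r0 g0) (hr r1 g1) (hr r2 g2)
  have he3 : e3 ≠ 0 := by
    intro h0
    have h1 := he.N
    rw [h0, map_zero] at h1
    have h2 : γ = 0 := CC.N_eq_zero.mp h1
    exact hnc 0 (by rw [map_zero, h2])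
  have hprod : r0 * r1 * r2 ≠ 0 := by
    rw [← v3]
    exact (_root_.map_ne_zero _).mpr he3
  have hr0 : r0 ≠ 0 := fun h0 => hprod (by rw [h0, zero_mul, zero_mul])
  have hr1 : r1 ≠ 0 := fun h0 => hprod (by rw [h0, mul_zero, zero_mul])
  have hr2 : r2 ≠ 0 := fun h0 => hprod (by rw [h0, mul_zero])
  refine cop_deg (Ω := AlgebraicClosure k) h2 h3 h01 h02 h12 hr0 hr1 hr2 ?_ tr j fun n => ?_
  · rw [← v1, ← v2]
    intro h0
    apply hne
    apply (algebraMap k (AlgebraicClosure k)).injective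
    rw [map_pow, map_mul, h0, map_ofNat]
  · obtain ⟨c, hc1, hc2⟩ := pow_T CC he (algebraMap k (AlgebraicClosure k)) v1 v2 v3 n
    rw [← hc2]
    congr 1
    have e : j ^ (2 * n) = ι (γ ^ n) := by
      rw [map_pow, he.sq, pow_mul, pow_two]
    rw [e]
    exact htr _ _ hc1

end frm

end Vale.Agent.P011.H872.FF
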