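import Vale.Agent.P011.H74.ExT
import Vale.Agent.P011.H271.AvoidF
import Vale.Agent.P011.H167.RhoFA
import Vale.Agent.P011.H359.Pen

/-!
# A parameter with prescribed sizes for which two pairs of polynomials have no common small value

Over a function field one place is not controlled; at this place the parameter is large and the
leading coefficients are units.
-/

open Module Polynomial
open scoped NNReal

set_option linter.unusedSectionVars false

namespace Vale.Agent.P011.H872.FF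

open Vale.Agent.P011.H738 Vale.Agent.P011.H271 Vale.Agent.P011.H271.ConF
open Vale.Agent.P011.H74.ExT (exists_near_zero eval_le_one not_both)

section res

variable {k : Type} [Field k]

theorem coeff_of_res {f g : k[X]} {m n : ℕ} (hf : f.natDegree ≤ m) (hg : g.natDegree ≤ n)
    (hm : m ≠ 0) (hn : n ≠ 0) (h : resultant f g m n ≠ 0) :
    ∃ c : k, c ≠ 0 ∧ (c = f.coeff m ∨ c = g.coeff n) := by
  by_contra hcon
  push Not at hcon
  have h1 : f.coeff m = 0 := by
    by_contra h1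
    exact (hcon _ h1).1 rfl
  have h2 : g.coeff n = 0 := by
    by_contra h2
    exact (hcon _ h2).2 rfl
  have hlt : ∀ {p : k[X]} {j : ℕ}, p.natDegree ≤ j → j ≠ 0 → p.coeff j = 0 → p.natDegree < j := by
    intro p j hp hj h0
    refine lt_of_le_of_ne hp fun he => ?_
    rw [← he] at h0
    have h3 : p = 0 := leadingCoeff_eq_zero.mp h0
    rw [h3, natDegree_zero] at he
    exact hj he.symm
  exact h (resultant_eq_zero_of_lt_lt f g m n (hlt hf hm h1) (hlt hg hn h2))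

end res

section val

variable {k Γ : Type*} [Field k] [LinearOrderedCommGroupWithZero Γ] (v : Valuation k Γ)

/-- Values at a large argument. -/
theorem eval_le_pow {f : k[X]} {n : ℕ} (hn : f.natDegree ≤ n) (hf : ∀ i, v (f.coeff i) ≤ 1)
    {T : k} (hT : 1 ≤ v T) : v (f.eval T) ≤ v T ^ n := by
  rw [eval_eq_sum_range' (Nat.lt_succ_of_le hn)]
  refine v.map_sum_le fun i hi => ?_
  rw [map_mul, map_pow]
  have h1 : v T ^ i ≤ v T ^ n := pow_le_pow_right₀ hT (Nat.lt_succ_iff.mp (Finset.mem_range.mp hi))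
  exact (mul_le_of_le_one_left' (hf i)).trans h1

/-- The value at a large argument if the leading coefficient is a unit. -/
theorem eval_eq_pow {f : k[X]} {n : ℕ} (hn : f.natDegree ≤ n) (hf : ∀ i, v (f.coeff i) ≤ 1)
    (hc : v (f.coeff n) = 1) {T : k} (hT : 1 < v T) : v (f.eval T) = v T ^ n := by
  have h0 : v T ≠ 0 := (zero_lt_one.trans hT).ne'
  have hT0 : T ≠ 0 := (Valuation.ne_zero_iff v).mp h0
  rw [eval_eq_sum_range' (Nat.lt_succ_of_le hn), Finset.sum_range_succ]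
  have h1 : v (f.coeff n * T ^ n) = v T ^ n := by rw [map_mul, hc, one_mul, map_pow]
  have h2 : v (∑ i ∈ Finset.range n, f.coeff i * T ^ i) < v (f.coeff n * T ^ n) := by
    rw [h1]
    refine v.map_sum_lt (pow_ne_zero n h0) fun i hi => ?_
    rw [map_mul, map_pow]
    exact (mul_le_of_le_one_left' (hf i)).trans_lt
      (pow_lt_pow_right₀ hT (Finset.mem_range.mp hi))
  rw [Valuation.map_add_eq_of_lt_right v h2, h1]

end val

variable {k : Type} [Field k] [GFF k]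

theorem finite_coeff (f : k[X]) : {v : Place k | ¬ ∀ n, vr v (f.coeff n) ≤ 1}.Finite := by
  have h : (⋃ n ∈ f.support, {v : Place k | v.abv (f.coeff n) ≠ 1}).Finite :=
    Set.Finite.biUnion f.support.finite_toSet fun n hn =>
      place_finite (Polynomial.mem_support_iff.mp hn)
  refine h.subset fun v hv => ?_
  rw [Set.mem_ofPred_eq] at hv
  push Not at hv
  obtain ⟨n, hn⟩ := hv
  refine Set.mem_biUnion (x := n) ?_ ?_
  · rw [Finset.mem_coe, Polynomial.mem_support_iff]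
    intro h0
    rw [h0, map_zero] at hn
    exact absurd hn (not_lt.mpr zero_le_one)
  · intro h1
    rw [vr_eq_one.2 h1] at hn
    exact lt_irrefl _ hn

/-- Small elements. -/
theorem exists_small (v : Place k) {r : ℝ≥0} (hr : 0 < r) : ∃ x : k, x ≠ 0 ∧ vr v x < r := by
  obtain ⟨t, ht⟩ := v.normalized.2.1
  have ht' : v.abv t = qq v := ht
  have hq1 : (1 : ℝ) < qq v := one_lt_qq' v
  have ht0 : t ≠ 0 := by
    rintro rfl
    rw [map_zero] at ht'
    linarith
  have h1 : vr v t⁻¹ < 1 := by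
    rw [vr_lt_one, map_inv₀, ht']
    exact inv_lt_one_of_one_lt₀ hq1
  obtain ⟨n, hn⟩ := exists_pow_lt_of_lt_one hr h1
  exact ⟨t⁻¹ ^ n, pow_ne_zero _ (inv_ne_zero ht0), by rwa [map_pow]⟩

/-- **(T)F The parameter.** -/
theorem exists_T (E1 E2 E3 : k[X]) (d1 : E1.natDegree ≤ 2) (d2 : E2.natDegree ≤ 4)
    (d3 : E3.natDegree ≤ 6) (h1 : resultant (E1 ^ 2 - 3 * E2) (E1 * E2 - 9 * E3) 4 6 ≠ 0)
    (h2 : resultant E2 E3 4 6 ≠ 0) {S Sg : Set (Place k)} (hS : S.Finite) (hSg : Sg.Finite)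
    (hE : ∀ v ∉ S, vr v (E1.eval 0) ≤ 1 ∧ vr v (E2.eval 0) ≤ 1 ∧ vr v (E3.eval 0) = 1 ∧
      ¬ (vr v (E1.eval 0 ^ 2 - 3 * E2.eval 0) < 1 ∧
        vr v (E1.eval 0 * E2.eval 0 - 9 * E3.eval 0) < 1))
    (τ' : Place k → ℝ≥0) :
    ∃ T : k, T ≠ 0 ∧ (∀ v ∈ Sg, τ' v < vr v T) ∧
      ∀ v, v ∉ S → v ∉ Sg → ∃ r : k, r ≠ 0 ∧
        vr v (E1.eval T / r ^ 2) ≤ 1 ∧ vr v (E2.eval T / r ^ 4) ≤ 1 ∧
        vr v (E3.eval T / r ^ 6) ≤ 1 ∧
        ¬ (vr v ((E1.eval T / r ^ 2) ^ 2 - 3 * (E2.eval T / r ^ 4)) < 1 ∧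
          vr v ((E1.eval T / r ^ 2) * (E2.eval T / r ^ 4) - 9 * (E3.eval T / r ^ 6)) < 1) ∧
        ¬ (vr v (E2.eval T / r ^ 4) < 1 ∧ vr v (E3.eval T / r ^ 6) < 1) := by
  classical
  -- the degrees
  have dn : ∀ {f : k[X]} {a : ℕ} (c : ℕ), f.natDegree ≤ a → ((c : k[X]) * f).natDegree ≤ a := by
    intro f a c hf
    refine natDegree_mul_le.trans ?_
    rw [natDegree_natCast, zero_add]
    exact hf
  have dP : (E1 ^ 2 - 3 * E2).natDegree ≤ 4 := by
    refine (natDegree_sub_le _ _).trans (max_le ?_ (dn 3 d2))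
    refine natDegree_pow_le.trans ?_
    omega
  have dR : (E1 * E2 - 9 * E3).natDegree ≤ 6 := by
    refine (natDegree_sub_le _ _).trans (max_le ?_ (dn 9 d3))
    refine natDegree_mul_le.trans ?_
    omega
  obtain ⟨a, b, hab⟩ := H359.cop_of_res dP dR (by norm_num) h1
  obtain ⟨a', b', hab'⟩ := H359.cop_of_res d2 d3 (by norm_num) h2
  obtain ⟨c1, hc1, hc1'⟩ := coeff_of_res dP dR (by norm_num) (by norm_num) h1
  obtain ⟨c2, hc2, hc2'⟩ := coeff_of_res d2 d3 (by norm_num) (by norm_num) h2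
  -- the bad places
  obtain ⟨S', hS'd⟩ : ∃ S' : Set (Place k), S' = (((((((({v | ¬ ∀ n, vr v
      (E1.coeff n) ≤ 1} ∪ {v | ¬ ∀ n, vr v (E2.coeff n) ≤ 1}) ∪
      {v | ¬ ∀ n, vr v (E3.coeff n) ≤ 1}) ∪ {v | ¬ ∀ n, vr v (a.coeff n) ≤ 1}) ∪
      {v | ¬ ∀ n, vr v (b.coeff n) ≤ 1}) ∪
      {v | ¬ ∀ n, vr v (a'.coeff n) ≤ 1}) ∪
      {v | ¬ ∀ n, vr v (b'.coeff n) ≤ 1}) ∪ {v | v.abv c1 ≠ 1}) ∪ {v | v.abv c2 ≠ 1} ∪
      {v | ¬ ∀ n, vr v ((E1 ^ 2 - 3 * E2).coeff n) ≤ 1}) ∪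
      {v | ¬ ∀ n, vr v ((E1 * E2 - 9 * E3).coeff n) ≤ 1} := ⟨_, rfl⟩
  have hS'f : S'.Finite := by
    rw [hS'd]
    exact ((((((((((finite_coeff E1).union (finite_coeff E2)).union (finite_coeff E3)).union
      (finite_coeff a)).union (finite_coeff b)).union (finite_coeff a')).union
      (finite_coeff b')).union (place_finite hc1)).union (place_finite hc2)).union
      (finite_coeff _)).union (finite_coeff _)
  have hS' : ∀ v ∉ S', (∀ n, vr v (E1.coeff n) ≤ 1) ∧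
      (∀ n, vr v (E2.coeff n) ≤ 1) ∧ (∀ n, vr v (E3.coeff n) ≤ 1) ∧
      (∀ n, vr v (a.coeff n) ≤ 1) ∧ (∀ n, vr v (b.coeff n) ≤ 1) ∧
      (∀ n, vr v (a'.coeff n) ≤ 1) ∧ (∀ n, vr v (b'.coeff n) ≤ 1) ∧ vr v c1 = 1 ∧
      vr v c2 = 1 ∧ (∀ n, vr v ((E1 ^ 2 - 3 * E2).coeff n) ≤ 1) ∧
      (∀ n, vr v ((E1 * E2 - 9 * E3).coeff n) ≤ 1) := by
    intro v hv
    rw [hS'd] at hv
    simp only [Set.mem_union, Set.mem_ofPred_eq, not_or, not_not] at hv
    obtain ⟨⟨⟨⟨⟨⟨⟨⟨⟨⟨g1, g2⟩, g3⟩, g4⟩, g5⟩, g6⟩, g7⟩, g8⟩, g9⟩, g10⟩, g11⟩ := hv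
    exact ⟨g1, g2, g3, g4, g5, g6, g7, vr_eq_one.2 g8, vr_eq_one.2 g9, g10, g11⟩
  -- margins
  choose δ1 hδ1 hδ1' hn1 using fun v : Place k => exists_near_zero (vr v) E1
  choose δ2 hδ2 hδ2' hn2 using fun v : Place k => exists_near_zero (vr v) E2
  choose δ3 hδ3 hδ3' hn3 using fun v : Place k => exists_near_zero (vr v) E3
  choose δ4 hδ4 hδ4' hn4 using fun v : Place k =>
    exists_near_zero (vr v) (E1 ^ 2 - 3 * E2)
  choose δ5 hδ5 hδ5' hn5 using fun v : Place k =>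
    exists_near_zero (vr v) (E1 * E2 - 9 * E3)
  obtain ⟨δ, hδd⟩ : ∃ δ : Place k → ℝ≥0, δ = fun v =>
      min (δ1 v) (min (δ2 v) (min (δ3 v) (min (δ4 v) (δ5 v)))) := ⟨_, rfl⟩
  have hδ : ∀ v, 0 < δ v := fun v => by
    rw [hδd]
    exact lt_min (zero_lt_iff.mpr (hδ1 v)) (lt_min (zero_lt_iff.mpr (hδ2 v))
      (lt_min (zero_lt_iff.mpr (hδ3 v)) (lt_min (zero_lt_iff.mpr (hδ4 v))
        (zero_lt_iff.mpr (hδ5 v)))))
  -- elements of given size
  have hsm : ∀ v : Place k, ∃ x : k, x ≠ 0 ∧ vr v x < δ v := fun v => exists_small v (hδ v)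
  have hbg : ∀ v : Place k, ∃ x : k, x ≠ 0 ∧ τ' v < vr v x := by
    intro v
    rcases eq_or_ne (τ' v) 0 with h0 | h0
    · exact ⟨1, one_ne_zero, by rw [h0, map_one]; exact zero_lt_one⟩
    · obtain ⟨c, hc0, hc⟩ := exists_small v (inv_pos.mpr (zero_lt_iff.mpr h0))
      refine ⟨c⁻¹, inv_ne_zero hc0, ?_⟩
      rw [map_inv₀]
      have h3 : 0 < vr v c := zero_lt_iff.mpr ((Valuation.ne_zero_iff _).mpr hc0)
      rwa [lt_inv_comm₀ (zero_lt_iff.mpr h0) h3]
  choose xs hxs0 hxs using hsm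
  choose xb hxb0 hxb using hbg
  obtain ⟨x, hxd⟩ : ∃ x : Place k → k, x = fun v => if v ∈ Sg then xb v else xs v :=
    ⟨_, rfl⟩
  have hx0 : ∀ v, x v ≠ 0 := fun v => by
    rw [hxd]
    dsimp only
    split_ifs
    · exact hxb0 v
    · exact hxs0 v
  have hxSg : ∀ v ∈ Sg, x v = xb v := fun v hv => by rw [hxd]; exact if_pos hv
  have hxnSg : ∀ v ∉ Sg, x v = xs v := fun v hv => by rw [hxd]; exact if_neg hv
  obtain ⟨v1⟩ : Nonempty (Place k) := by
    obtain ⟨v, -⟩ := H167.RhoF.exists_notMem (k := k) ∅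
    exact ⟨v⟩
  obtain ⟨F, hFd⟩ : ∃ F : Finset (Place k),
      F = insert v1 (hS.toFinset ∪ hSg.toFinset ∪ hS'f.toFinset) := ⟨_, rfl⟩
  obtain ⟨q, hq⟩ := H167.RhoF.exists_notMem F
  obtain ⟨T, hT1, hT2⟩ := AvoidF.approx hq x (fun v => vr v (x v)) fun v _ =>
    zero_lt_iff.mpr ((Valuation.ne_zero_iff _).mpr (hx0 v))
  have hTF : ∀ v ∈ F, vr v T = vr v (x v) := by
    intro v hv
    have e : T = x v + (T - x v) := by ring
    rw [e]
    exact Valuation.map_add_eq_of_lt_left _ (hT1 v hv)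
  have hFSg : ∀ v ∈ Sg, v ∈ F := fun v hv => by
    rw [hFd, Finset.mem_insert, Finset.mem_union, Finset.mem_union, hSg.mem_toFinset]
    exact Or.inr (Or.inl (Or.inr hv))
  have hFS' : ∀ v ∈ S', v ∈ F := fun v hv => by
    rw [hFd, Finset.mem_insert, Finset.mem_union, hS'f.mem_toFinset]
    exact Or.inr (Or.inr hv)
  have hFv1 : v1 ∈ F := by
    rw [hFd]
    exact Finset.mem_insert_self _ _
  have hT0 : T ≠ 0 := by
    rintro rfl
    have h3 := hTF v1 hFv1
    rw [map_zero] at h3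
    exact (Valuation.ne_zero_iff _).mpr (hx0 v1) h3.symm
  refine ⟨T, hT0, fun v hv => ?_, fun v hv hvg => ?_⟩
  · rw [hTF v (hFSg v hv), hxSg v hv]
    exact hxb v
  · by_cases hvF : v ∈ F
    · have h3 : vr v T < δ v := by
        rw [hTF v hvF, hxnSg v hvg]
        exact hxs v
      rw [hδd] at h3
      dsimp only at h3
      rw [lt_min_iff, lt_min_iff, lt_min_iff, lt_min_iff] at h3
      obtain ⟨g1, g2, g3, g4, g5⟩ := h3
      obtain ⟨e1, e2, e3, e4⟩ := hE v hv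
      have k1 := hn1 v T g1
      have k2 := hn2 v T g2
      have k3 := hn3 v T g3
      have k4 := hn4 v T g4
      have k5 := hn5 v T g5
      have hle : ∀ {p q : k}, vr v (p - q) < 1 → vr v q ≤ 1 →
          vr v p ≤ 1 := fun {p q} h h' => by
        have e : p = (p - q) + q := by ring
        rw [e]
        exact (Valuation.map_add _ _ _).trans (max_le h.le h')
      have hlt : ∀ {p q : k}, vr v (p - q) < 1 → vr v p < 1 →
          vr v q < 1 := fun {p q} h h' => by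
        have e : q = p - (p - q) := by ring
        rw [e]
        exact (Valuation.map_sub _ _ _).trans_lt (max_lt h' h)
      refine ⟨1, one_ne_zero, ?_⟩
      simp only [one_pow, div_one]
      refine ⟨hle k1 e1, hle k2 e2, hle k3 e3.le, fun h => ?_, fun h => ?_⟩
      · apply e4
        simp only [eval_sub, eval_mul, eval_pow, eval_ofNat] at k4 k5
        exact ⟨hlt k4 h.1, hlt k5 h.2⟩
      · exact absurd e3 (hlt k3 h.2).ne
    · obtain ⟨g1, g2, g3, g4, g5, g6, g7, g8, g9, g10, g11⟩ := hS' v fun h => hvF (hFS' v h)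
      by_cases hTv : vr v T ≤ 1
      · refine ⟨1, one_ne_zero, ?_⟩
        simp only [one_pow, div_one]
        refine ⟨eval_le_one _ g1 hTv, eval_le_one _ g2 hTv, eval_le_one _ g3 hTv, ?_, ?_⟩
        · have h3 := not_both (vr v) hab g4 g5 hTv
          simp only [eval_sub, eval_mul, eval_pow, eval_ofNat] at h3
          exact h3
        · exact not_both (vr v) hab' g6 g7 hTv
      · -- the extra place
        have hT' : 1 < vr v T := not_le.mp hTv
        have hp : ∀ n : ℕ, vr v T ^ n ≠ 0 := fun n => pow_ne_zero n (zero_lt_one.trans hT').ne'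
        have hdiv : ∀ {y : k} (n : ℕ), vr v y ≤ vr v T ^ n → vr v (y / T ^ n) ≤ 1 := by
          intro y n hy
          rw [map_div₀, map_pow, div_le_one₀ (zero_lt_iff.mpr (hp n))]
          exact hy
        have hdiv1 : ∀ {y : k} (n : ℕ), vr v y = vr v T ^ n → vr v (y / T ^ n) = 1 := by
          intro y n hy
          rw [map_div₀, map_pow, hy, div_self (hp n)]
        refine ⟨T, hT0, hdiv 2 (eval_le_pow _ d1 g1 hT'.le), hdiv 4 (eval_le_pow _ d2 g2 hT'.le),
          hdiv 6 (eval_le_pow _ d3 g3 hT'.le), ?_, ?_⟩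
        · have e1 : (E1.eval T / T ^ 2) ^ 2 - 3 * (E2.eval T / T ^ 4) =
              (E1 ^ 2 - 3 * E2).eval T / T ^ 4 := by
            simp only [eval_sub, eval_mul, eval_pow, eval_ofNat]
            field_simp
          have e2 : (E1.eval T / T ^ 2) * (E2.eval T / T ^ 4) - 9 * (E3.eval T / T ^ 6) =
              (E1 * E2 - 9 * E3).eval T / T ^ 6 := by
            simp only [eval_sub, eval_mul, eval_pow, eval_ofNat]
            field_simp
          rw [e1, e2]
          rintro ⟨m1, m2⟩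
          rcases hc1' with hc | hc
          · rw [hc] at g8
            exact m1.ne (hdiv1 4 (eval_eq_pow _ dP g10 g8 hT'))
          · rw [hc] at g8
            exact m2.ne (hdiv1 6 (eval_eq_pow _ dR g11 g8 hT'))
        · rintro ⟨m1, m2⟩
          rcases hc2' with hc | hc
          · rw [hc] at g9
            exact m1.ne (hdiv1 4 (eval_eq_pow _ d2 g2 g9 hT'))
          · rw [hc] at g9
            exact m2.ne (hdiv1 6 (eval_eq_pow _ d3 g3 g9 hT'))

end Vale.Agent.P011.H872.FF
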