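import Vale.Agent.P011.H738.LocDF1
import Vale.Agent.P011.H83.NuNorm
import Vale.Agent.P011.H73.Sp1

/-!
Local norms from a cubic extension at a place of a function field: units at a place where the
polynomial does not become a cube; elements which are not units.
-/

open Module Polynomial
open scoped NNReal

set_option linter.unusedSectionVars false

namespace Vale.Agent.P011.H872.FF

open Vale.Agent.P011.H738 Vale.Agent.P011.H271 Vale.Agent.P011.H271.ConF Vale.Agent.P011.H271.S3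
open Vale.Agent.P011.H83.NuNorm (nn NN map_nn)

/-- The norm of a root of a cubic polynomial. -/
theorem norm_root {k E : Type} [Field k] [Field E] [Algebra k E]
    (hE : finrank k E = 3) {e1 e2 e3 : k} {θ : E}
    (hθ : θ ^ 3 - algebraMap k E e1 * θ ^ 2 + algebraMap k E e2 * θ - algebraMap k E e3 = 0)
    (hgen : ∀ c : k, algebraMap k E c ≠ θ) : Algebra.norm k θ = e3 := by
  have h1 := norm_pol hE (θ := θ) (t := e1) (s := e2) (n := e3) (by
    rw [Algebra.smul_def, Algebra.smul_def, Algebra.smul_def, mul_one]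
    exact hθ) hgen 0 1 0
  rw [zero_smul, zero_smul, one_smul, zero_add, add_zero] at h1
  rw [h1, RR]
  ring

/-- **(L)F** Units are local norms at a place `v` where the polynomial
`X ^ 3 - e1 X ^ 2 + e2 X - e3` is integral and not a cube modulo `v`. -/
theorem loc_of_not_cube {k E : Type} [Field k] [GFF k] [Field E] [Algebra k E]
    (hE : finrank k E = 3) (v : Place k) {e1 e2 e3 : k} (h1 : v.abv e1 ≤ 1)
    (h2 : v.abv e2 ≤ 1) (h3 : v.abv e3 ≤ 1)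
    (hnc : ¬ (v.abv (e1 ^ 2 - 3 * e2) < 1 ∧ v.abv (e1 * e2 - 9 * e3) < 1))
    {θ : E} (hθ : θ ^ 3 - algebraMap k E e1 * θ ^ 2 + algebraMap k E e2 * θ -
      algebraMap k E e3 = 0) (hgen : ∀ c : k, algebraMap k E c ≠ θ)
    {b : k} (hb : v.abv b = 1) : ∃ e : E, v.abv (b / Algebra.norm k e - 1) < 1 := by
  have hi : ∀ m : ℕ, v.abv (m : k) ≤ 1 := by
    intro m
    induction m with
    | zero => rw [Nat.cast_zero, map_zero]; exact zero_le_one
    | succ n ih =>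
      rw [Nat.cast_succ]
      exact (v.nonarch _ _).trans (max_le ih (by rw [map_one]))
  have h3i : v.abv (3 : k) ≤ 1 := by simpa using hi 3
  have h9i : v.abv (9 : k) ≤ 1 := by simpa using hi 9
  have hcl : ∀ {x y : k}, v.abv x < 1 → v.abv y ≤ 1 → v.abv (x * y) < 1 := by
    intro x y hx hy
    rw [map_mul]
    exact (mul_le_of_le_one_right (v.abv.nonneg _) hy).trans_lt hx
  have hadd : ∀ {x y : k}, v.abv x < 1 → v.abv y < 1 → v.abv (x + y) < 1 :=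
    fun hx hy => (v.nonarch _ _).trans_lt (max_lt hx hy)
  have hneg : ∀ {x : k}, v.abv x < 1 → v.abv (-x) < 1 := by
    intro x hx
    rwa [v.abv.map_neg]
  obtain ⟨c₀, c₁, c₂, h⟩ := exists_RR_near v h1 h2 h3 hb (by
    rintro ⟨c, hc, ht, hs, hn⟩
    have h3c : v.abv (3 * c) ≤ 1 := by
      rw [map_mul]
      exact mul_le_one₀ h3i (v.abv.nonneg _) hc
    have hsum : v.abv (e1 + 3 * c) ≤ 1 := (v.nonarch _ _).trans (max_le h1 h3c)
    apply hnc
    constructor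
    · have e : e1 ^ 2 - 3 * e2 = (e1 - 3 * c) * (e1 + 3 * c) + -((e2 - 3 * c ^ 2) * 3) := by ring
      rw [e]
      exact hadd (hcl ht hsum) (hneg (hcl hs h3i))
    · have e : e1 * e2 - 9 * e3 = (e1 - 3 * c) * e2 + (e2 - 3 * c ^ 2) * (3 * c) +
          -((e3 - c ^ 3) * 9) := by ring
      rw [e]
      exact hadd (hadd (hcl ht h2) (hcl hs h3c)) (hneg (hcl hn h9i)))
  refine ⟨c₀ • (1 : E) + c₁ • θ + c₂ • (θ * θ), ?_⟩
  rw [norm_pol hE (θ := θ) (t := e1) (s := e2) (n := e3) (by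
    rw [Algebra.smul_def, Algebra.smul_def, Algebra.smul_def, mul_one]
    exact hθ) hgen]
  set r := RR c₀ c₁ c₂ e1 e2 e3 with hr
  have hr1 : v.abv r = 1 := by
    have e : r = (r - b) + b := by ring
    refine le_antisymm ?_ ?_
    · rw [e]
      exact (v.nonarch _ _).trans (max_le h.le hb.le)
    · by_contra hcon
      have h4 : v.abv (r - (r - b)) ≤ max (v.abv r) (v.abv (-(r - b))) := by
        rw [sub_eq_add_neg]
        exact v.nonarch _ _
      rw [sub_sub_cancel, hb, v.abv.map_neg] at h4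
      exact absurd h4 (not_le.mpr (max_lt (not_le.mp hcon) h))
  have hr0 : r ≠ 0 := by
    intro h0
    rw [h0, map_zero] at hr1
    exact zero_ne_one hr1
  have e : b / r - 1 = -((r - b) / r) := by
    field_simp
    ring
  rw [e, v.abv.map_neg, map_div₀, hr1, div_one]
  exact h

section val

variable {F Γ : Type*} [Field F] [LinearOrderedCommGroupWithZero Γ] (V : Valuation F Γ)

theorem near_one {x : F} (hx : V (x - 1) < 1) : V x = 1 := by
  have h1 : V (x - 1) < V 1 := by rwa [map_one]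
  have h2 := Valuation.map_add_eq_of_lt_left V h1
  rwa [add_comm, sub_add_cancel, map_one] at h2

theorem near_inv {x : F} (hx : V (x - 1) < 1) : V (x⁻¹ - 1) < 1 := by
  have h1 := near_one V hx
  have h0 : x ≠ 0 := by
    rintro rfl
    rw [map_zero] at h1
    exact zero_ne_one h1
  have e : x⁻¹ - 1 = -(x - 1) * x⁻¹ := by
    field_simp
    ring
  rw [e, map_mul, Valuation.map_neg, map_inv₀, h1, inv_one, mul_one]
  exact hx

theorem near_mul {a b : F} (ha : V (a - 1) < 1) (hb : V (b - 1) < 1) : V (a * b - 1) < 1 := by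
  have h1 : V b ≤ 1 := (near_one V hb).le
  have e : a * b - 1 = (a - 1) * b + (b - 1) := by ring
  rw [e]
  refine V.map_add_lt ?_ hb
  rw [map_mul]
  exact (mul_le_of_le_one_right' h1).trans_lt ha

theorem val_p_eq {δ p u : F} (hδ : V δ = 1) (hpu : p ^ 2 - δ * u ^ 2 = 1) (hu : 1 < V u) :
    V p = V u := by
  have e : p ^ 2 = δ * u ^ 2 + 1 := by linear_combination hpu
  have h1 : V (δ * u ^ 2) = V u ^ 2 := by rw [map_mul, hδ, one_mul, map_pow]
  have h2 : V 1 < V (δ * u ^ 2) := by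
    rw [h1, map_one]
    exact one_lt_pow₀ hu (by norm_num)
  have h3 := Valuation.map_add_eq_of_lt_left V h2
  rw [← e, h1, map_pow] at h3
  exact (pow_left_inj₀ zero_le zero_le two_ne_zero).mp h3

theorem val_p_le {δ p u : F} (hδ : V δ = 1) (hpu : p ^ 2 - δ * u ^ 2 = 1) (hu : V u ≤ 1) :
    V p ≤ 1 := by
  have e : p ^ 2 = 1 + δ * u ^ 2 := by linear_combination hpu
  have h1 : V (p ^ 2) ≤ 1 := by
    rw [e]
    refine (V.map_add _ _).trans (max_le (by rw [map_one]) ?_)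
    rw [map_mul, hδ, one_mul, map_pow]
    exact pow_le_one₀ zero_le hu
  rw [map_pow] at h1
  exact (pow_le_one_iff two_ne_zero).mp h1

theorem nu_ne {x x' c : F} (h1 : x * x' = 1) (h2 : x + x' = c) (h3 : 1 < V c) : V x ≠ 1 := by
  intro h
  have h4 : V x' = 1 := by
    have := congrArg V h1
    rwa [map_mul, h, one_mul, map_one] at this
  have h5 := V.map_add x x'
  rw [h2, h, h4, max_self] at h5
  exact absurd h5 (not_le.mpr h3)

theorem nu_eq {x x' : F} (h1 : x * x' = 1) (h2 : V x ≤ 1) (h3 : V x' ≤ 1) : V x = 1 := by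
  refine le_antisymm h2 ?_
  have h4 := congrArg V h1
  rw [map_mul, map_one] at h4
  rw [← h4]
  exact mul_le_of_le_one_right' h3

end val

section loc

variable {F E Γ : Type*} [Field F] [Field E] [Algebra F E] [LinearOrderedCommGroupWithZero Γ]
  (hE : finrank F E = 3) (V : Valuation F Γ)

include hE

theorem loc_lt {θ : E} {a3 T f3 e3 ν n : F} (M : ℕ) (hN : Algebra.norm F θ = a3) (hT : T ≠ 0)
    (he : e3 ≠ 0) (hν : ν ≠ 0) (hn : n ≠ 0) (hf3 : f3 = n * e3 ^ 3)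
    (hx : V (a3 / (T ^ 6 * f3) - 1) < 1) (hy : V (n * ν ^ (2 * (3 * M + 1)) - 1) < 1) :
    ∃ e : E, V (ν / Algebra.norm F e - 1) < 1 := by
  refine ⟨algebraMap F E (ν / (T ^ 2 * e3 / ν ^ (2 * M))) * θ, ?_⟩
  have ha : a3 ≠ 0 := by
    rintro rfl
    rw [zero_div, zero_sub, Valuation.map_neg, map_one] at hx
    exact lt_irrefl _ hx
  rw [map_mul, Algebra.norm_algebraMap, hE, hN]
  have e : ν / ((ν / (T ^ 2 * e3 / ν ^ (2 * M))) ^ 3 * a3) =
      ((a3 / (T ^ 6 * f3)) * (n * ν ^ (2 * (3 * M + 1))))⁻¹ := by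
    rw [hf3]
    have e1 : ν ^ (2 * (3 * M + 1)) = (ν ^ (2 * M)) ^ 3 * ν ^ 2 := by
      rw [← pow_mul, ← pow_add]
      congr 1
      ring
    rw [e1]
    field_simp
  rw [e]
  exact near_inv V (near_mul V hx hy)

theorem loc_gt {θ : E} {a3 T f3 e3 ν n : F} (M : ℕ) (hN : Algebra.norm F θ = a3) (hT : T ≠ 0)
    (he : e3 ≠ 0) (hν : ν ≠ 0) (hn : n ≠ 0) (hf3 : f3 = n * e3 ^ 3)
    (hx : V (a3 / (T ^ 6 * f3) - 1) < 1) (hy : V (n / ν ^ (2 * (3 * M + 1)) - 1) < 1) :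
    ∃ e : E, V (ν / Algebra.norm F e - 1) < 1 := by
  refine ⟨algebraMap F E (T ^ 2 * e3 * ν ^ (2 * M) * ν) * θ⁻¹, ?_⟩
  have ha : a3 ≠ 0 := by
    rintro rfl
    rw [zero_div, zero_sub, Valuation.map_neg, map_one] at hx
    exact lt_irrefl _ hx
  have hfd : FiniteDimensional F E := Module.finite_of_finrank_pos (by rw [hE]; norm_num)
  have hθ0 : θ ≠ 0 := by
    rintro rfl
    rw [Algebra.norm_zero] at hN
    exact ha hN.symm
  have hinv : Algebra.norm F θ⁻¹ = (Algebra.norm F θ)⁻¹ := by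
    refine eq_inv_of_mul_eq_one_left ?_
    rw [← map_mul, inv_mul_cancel₀ hθ0, map_one]
  rw [map_mul, Algebra.norm_algebraMap, hE, hinv, hN]
  have e : ν / ((T ^ 2 * e3 * ν ^ (2 * M) * ν) ^ 3 * a3⁻¹) =
      (a3 / (T ^ 6 * f3)) * (n / ν ^ (2 * (3 * M + 1))) := by
    rw [hf3]
    have e1 : ν ^ (2 * (3 * M + 1)) = (ν ^ (2 * M)) ^ 3 * ν ^ 2 := by
      rw [← pow_mul, ← pow_add]
      congr 1
      ring
    rw [e1]
    field_simp
  rw [e]
  exact near_mul V hx hy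

end loc

section nn

variable {K : Type*} [Field K] (V : Valuation K ℝ≥0)

/-- Powers of a small element are eventually smaller than anything. -/
theorem ev_small {x : K} (hx : V x < 1) (a : K) : ∃ M0 : ℕ, ∀ M ≥ M0, V (x ^ M * a) < 1 := by
  by_cases ha : a = 0
  · exact ⟨0, fun M _ => by rw [ha, mul_zero, map_zero]; exact zero_lt_one⟩
  have ha0 : 0 < V a := zero_lt_iff.mpr ((Valuation.ne_zero_iff V).2 ha)
  obtain ⟨M0, hM0⟩ := exists_pow_lt_of_lt_one (inv_pos.mpr ha0) hx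
  refine ⟨M0, fun M hM => ?_⟩
  rw [map_mul, map_pow]
  have h1 : V x ^ M ≤ V x ^ M0 := pow_le_pow_of_le_one zero_le hx.le hM
  calc V x ^ M * V a ≤ V x ^ M0 * V a := mul_le_mul_left h1 _
    _ < (V a)⁻¹ * V a := mul_lt_mul_of_pos_right hM0 ha0
    _ = 1 := inv_mul_cancel₀ ha0.ne'

theorem le_of_small {x : K} (hx : V x < 1) {n m : ℕ} (h : m ≤ n) (a : K)
    (h1 : V (x ^ m * a) < 1) : V (x ^ n * a) < 1 := by
  obtain ⟨j, rfl⟩ := Nat.exists_eq_add_of_le h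
  have e : x ^ (m + j) * a = x ^ j * (x ^ m * a) := by rw [pow_add]; ring
  rw [e, map_mul, map_pow]
  calc V x ^ j * V (x ^ m * a) ≤ 1 * V (x ^ m * a) := mul_le_mul_left (pow_le_one' hx.le j) _
    _ < 1 := by rw [one_mul]; exact h1

/-- `nn` near `1` at the places where `x` is small. -/
theorem nn_small {x : K} (hx : V x < 1) (t s : K) :
    ∃ M0 : ℕ, ∀ M ≥ M0, V (nn x t s M - 1) < 1 := by
  obtain ⟨M1, h1⟩ := ev_small V hx t
  obtain ⟨M2, h2⟩ := ev_small V hx s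
  obtain ⟨M3, h3⟩ := ev_small V hx 1
  refine ⟨M1 + M2 + M3, fun M hM => ?_⟩
  have e : nn x t s M - 1 = x ^ (3 * M + 1) * 1 + x ^ (2 * M) * s + x ^ M * t := by
    rw [nn]; ring
  rw [e]
  refine V.map_add_lt (V.map_add_lt ?_ ?_) (h1 M (by omega))
  · exact le_of_small V hx (by omega) 1 (h3 M (by omega))
  · exact le_of_small V hx (by omega) s (h2 M (by omega))

/-- `nn` at `x⁻¹`. -/
theorem nn_inv {x : K} (hx0 : x ≠ 0) (hx : V x < 1) (t s : K) :
    ∃ M0 : ℕ, ∀ M ≥ M0, V (nn x⁻¹ t s M * x ^ (3 * M + 1) - 1) < 1 := by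
  obtain ⟨M1, h1⟩ := ev_small V hx t
  obtain ⟨M2, h2⟩ := ev_small V hx s
  obtain ⟨M3, h3⟩ := ev_small V hx 1
  refine ⟨M1 + M2 + M3, fun M hM => ?_⟩
  have e1 : x⁻¹ ^ (3 * M + 1) * x ^ (3 * M + 1) = 1 := by
    rw [← mul_pow, inv_mul_cancel₀ hx0, one_pow]
  have e2 : x⁻¹ ^ (2 * M) * x ^ (3 * M + 1) = x ^ (M + 1) := by
    rw [show 3 * M + 1 = 2 * M + (M + 1) by ring, pow_add x, ← mul_assoc, ← mul_pow,
      inv_mul_cancel₀ hx0, one_pow, one_mul]
  have e3 : x⁻¹ ^ M * x ^ (3 * M + 1) = x ^ (2 * M + 1) := by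
    rw [show 3 * M + 1 = M + (2 * M + 1) by ring, pow_add x, ← mul_assoc, ← mul_pow,
      inv_mul_cancel₀ hx0, one_pow, one_mul]
  have e : nn x⁻¹ t s M * x ^ (3 * M + 1) - 1 =
      x ^ (M + 1) * s + x ^ (2 * M + 1) * t + x ^ (3 * M + 1) * 1 := by
    rw [nn, add_mul, add_mul, add_mul, e1, mul_right_comm, e2, mul_right_comm (x⁻¹ ^ M), e3]
    ring
  rw [e]
  refine V.map_add_lt (V.map_add_lt ?_ ?_) ?_
  · exact le_of_small V hx (by omega) s (h2 M (by omega))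
  · exact le_of_small V hx (by omega) t (h1 M (by omega))
  · exact le_of_small V hx (by omega) 1 (h3 M (by omega))

/-- The product. -/
theorem nn_prod {x : K} (hx0 : x ≠ 0) (hx : V x < 1) (t0 s0 t1 s1 t2 s2 t3 s3 : K) :
    ∃ M0 : ℕ, ∀ M ≥ M0, V (nn x t0 s0 M * nn x t1 s1 M * nn x⁻¹ t2 s2 M * nn x⁻¹ t3 s3 M *
      x ^ (2 * (3 * M + 1)) - 1) < 1 := by
  obtain ⟨M0, h0⟩ := nn_small V hx t0 s0
  obtain ⟨M1, h1⟩ := nn_small V hx t1 s1
  obtain ⟨M2, h2⟩ := nn_inv V hx0 hx t2 s2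
  obtain ⟨M3, h3⟩ := nn_inv V hx0 hx t3 s3
  refine ⟨M0 + M1 + M2 + M3, fun M hM => ?_⟩
  have h := near_mul V (near_mul V (h0 M (by omega)) (h1 M (by omega)))
    (near_mul V (h2 M (by omega)) (h3 M (by omega)))
  have e : nn x t0 s0 M * nn x t1 s1 M * nn x⁻¹ t2 s2 M * nn x⁻¹ t3 s3 M *
      x ^ (2 * (3 * M + 1)) = nn x t0 s0 M * nn x t1 s1 M *
      (nn x⁻¹ t2 s2 M * x ^ (3 * M + 1) * (nn x⁻¹ t3 s3 M * x ^ (3 * M + 1))) := by
    rw [two_mul, pow_add x]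
    ring
  rw [e]
  exact h

/-- **(R4)** -/
theorem nu_norm (σ τ : K →+* K) {ν : K} (t1 s1 : K) (h0 : ν ≠ 0) (hσ : σ ν = ν⁻¹)
    (hτ : τ ν = ν⁻¹) :
    (V ν < 1 → ∃ M0 : ℕ, ∀ M ≥ M0,
      V (NN σ τ ν t1 s1 M * ν ^ (2 * (3 * M + 1)) - 1) < 1) ∧
    (1 < V ν → ∃ M0 : ℕ, ∀ M ≥ M0,
      V (NN σ τ ν t1 s1 M / ν ^ (2 * (3 * M + 1)) - 1) < 1) := by
  have hστ : τ (σ ν) = ν := by rw [hσ, map_inv₀, hτ, inv_inv]
  constructor
  · intro hν
    obtain ⟨M0, h⟩ := nn_prod V h0 hν t1 s1 (τ (σ t1)) (τ (σ s1)) (σ t1) (σ s1) (τ t1) (τ s1)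
    refine ⟨M0, fun M hM => ?_⟩
    have e : NN σ τ ν t1 s1 M = nn ν t1 s1 M * nn ν (τ (σ t1)) (τ (σ s1)) M *
        nn ν⁻¹ (σ t1) (σ s1) M * nn ν⁻¹ (τ t1) (τ s1) M := by
      rw [NN, map_nn σ, map_nn τ, map_nn τ, hσ, hτ, map_inv₀, hτ, inv_inv]
      ring
    rw [e]
    exact h M hM
  · intro hν
    have hν' : V ν⁻¹ < 1 := by
      rw [map_inv₀]
      exact inv_lt_one_of_one_lt₀ hν
    obtain ⟨M0, h⟩ := nn_prod V (inv_ne_zero h0) hν' (σ t1) (σ s1) (τ t1) (τ s1) t1 s1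
      (τ (σ t1)) (τ (σ s1))
    refine ⟨M0, fun M hM => ?_⟩
    have h1 := h M hM
    rw [inv_inv] at h1
    have e : NN σ τ ν t1 s1 M / ν ^ (2 * (3 * M + 1)) = nn ν⁻¹ (σ t1) (σ s1) M *
        nn ν⁻¹ (τ t1) (τ s1) M * nn ν t1 s1 M * nn ν (τ (σ t1)) (τ (σ s1)) M *
        ν⁻¹ ^ (2 * (3 * M + 1)) := by
      rw [NN, map_nn σ, map_nn τ, map_nn τ, hσ, hτ, map_inv₀, hτ, inv_inv, div_eq_mul_inv,
        inv_pow]
      ring
    rw [e]
    exact h1

end nn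

/-- The exponent which is good at finitely many places. -/
theorem exists_M {F : Type} [Field F] (σ τ : F →+* F) {ν : F} (t1 s1 : F)
    (h0 : ν ≠ 0) (hσ : σ ν = ν⁻¹) (hτ : τ ν = ν⁻¹) {P : Set (Place F)}
    (hP : P.Finite) : ∃ M : ℕ, ∀ V ∈ P, (vr V ν < 1 →
      vr V (NN σ τ ν t1 s1 M * ν ^ (2 * (3 * M + 1)) - 1) < 1) ∧
      (1 < vr V ν → vr V (NN σ τ ν t1 s1 M / ν ^ (2 * (3 * M + 1)) - 1) < 1) := by
  have h1 : ∀ V : Place F, ∃ M0 : ℕ, ∀ M ≥ M0, (vr V ν < 1 →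
      vr V (NN σ τ ν t1 s1 M * ν ^ (2 * (3 * M + 1)) - 1) < 1) ∧
      (1 < vr V ν → vr V (NN σ τ ν t1 s1 M / ν ^ (2 * (3 * M + 1)) - 1) < 1) := by
    intro V
    obtain ⟨g1, g2⟩ := nu_norm (vr V) σ τ t1 s1 h0 hσ hτ
    rcases lt_trichotomy (vr V ν) 1 with h | h | h
    · obtain ⟨M0, hM0⟩ := g1 h
      exact ⟨M0, fun M hM => ⟨fun _ => hM0 M hM, fun h' => absurd h' h.not_gt⟩⟩
    · exact ⟨0, fun M _ => ⟨fun h' => absurd h h'.ne, fun h' => absurd h h'.ne'⟩⟩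
    · obtain ⟨M0, hM0⟩ := g2 h
      exact ⟨M0, fun M hM => ⟨fun h' => absurd h' h.not_gt, fun _ => hM0 M hM⟩⟩
  choose M0 hM0 using h1
  refine ⟨hP.toFinset.sup M0, fun V hV => hM0 V _ ?_⟩
  exact Finset.le_sup (hP.mem_toFinset.mpr hV)

end Vale.Agent.P011.H872.FF
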