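import Vale.Agent.P011.H872.FF.BaseF
import Vale.Agent.P011.H872.FF.ExTF
import Vale.Agent.P011.H872.FF.LocF
import Vale.Agent.P011.H83.CopNear
import Vale.Agent.P011.H929.LU
import Vale.Agent.P011.H974.RamOutF

/-!
The element `j` attached to an element of the centralizer near one: function fields, first part.
-/

open Module Polynomial
open scoped NNReal

set_option linter.unusedSectionVars false

namespace Vale.Agent.P011.H872.FF

open Vale.Agent.P011.H305 Vale.Agent.P011.H738 Vale.Agent.P011.H271 Vale.Agent.P011.H271.ConF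
open Vale.Agent.P011.H271.S3 Vale.Agent.P011.H182
open Vale.Agent.P011.H63.FB (incF LSF)
open Vale.Agent.P011.Arith (NF)
open Vale.Agent.P011.H775 (Cub)
open Vale.Agent.P011.H83.NuNorm (nn NN)
open Vale.Agent.P011.H359 (Cop pwr PE1 PE2 PE3 pwr_eval PE1_natDegree PE2_natDegree PE3_natDegree)
open Vale.Agent.P011.H929 (LU LU.proj LU.const)

section abs

/-- The elements `p + u i` near one are closed under multiplication. -/
theorem pow_near {k D : Type} [Field k] [Ring D] [Algebra k D] {a : AbsoluteValue k ℝ}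
    (ha : IsNonarchimedean a) {δ : k} {i : D} (hi : i * i = algebraMap k D δ) {r : ℝ}
    (hr0 : 0 < r) (hr1 : r ≤ 1) (hrδ : a δ * r ≤ 1) {p u : k} (hp : a (p - 1) < r) (hu : a u < r)
    (M : ℕ) : ∃ P U : k, (p • (1 : D) + u • i) ^ M = P • (1 : D) + U • i ∧ a (P - 1) < r ∧
      a U < r := by
  have hle : ∀ x : k, a (x - 1) < r → a x ≤ 1 := by
    intro x hx
    have e : x = (x - 1) + 1 := by ring
    rw [e]
    refine (ha _ _).trans (max_le ?_ (by rw [map_one]))
    exact hx.le.trans hr1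
  induction M with
  | zero =>
    refine ⟨1, 0, by rw [pow_zero, one_smul, zero_smul, add_zero], ?_, ?_⟩
    · rw [sub_self, map_zero]
      exact hr0
    · rw [map_zero]
      exact hr0
  | succ M ih =>
    obtain ⟨P, U, h, hP, hU⟩ := ih
    refine ⟨P * p + δ * (U * u), P * u + U * p, ?_, ?_, ?_⟩
    · rw [pow_succ, h]
      simp only [add_mul, mul_add, smul_mul_assoc, mul_smul_comm, one_mul, mul_one, hi,
        Algebra.algebraMap_eq_smul_one]
      module
    · have e : P * p + δ * (U * u) - 1 = ((P - 1) * p + (p - 1)) + δ * (U * u) := by ring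
      rw [e]
      have h1 : a ((P - 1) * p) < r := by
        rw [map_mul]
        calc a (P - 1) * a p ≤ a (P - 1) * 1 :=
              mul_le_mul_of_nonneg_left (hle p hp) (AbsoluteValue.nonneg _ _)
          _ < r := by rwa [mul_one]
      have h2 : a (δ * (U * u)) < r := by
        rw [map_mul, map_mul]
        have h3 : a U * a u < r * r :=
          mul_lt_mul'' hU hu (AbsoluteValue.nonneg _ _) (AbsoluteValue.nonneg _ _)
        rcases (AbsoluteValue.nonneg a δ).eq_or_lt with h4 | h4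
        · rw [← h4, zero_mul]
          exact hr0
        · calc a δ * (a U * a u) < a δ * (r * r) := mul_lt_mul_of_pos_left h3 h4
            _ = (a δ * r) * r := by ring
            _ ≤ 1 * r := mul_le_mul_of_nonneg_right hrδ hr0.le
            _ = r := one_mul r
      exact (ha _ _).trans_lt (max_lt ((ha _ _).trans_lt (max_lt h1 hp)) h2)
    · have h1 : a (P * u) < r := by
        rw [map_mul]
        calc a P * a u ≤ 1 * a u :=
              mul_le_mul_of_nonneg_right (hle P hP) (AbsoluteValue.nonneg _ _)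
          _ < r := by rwa [one_mul]
      have h2 : a (U * p) < r := by
        rw [map_mul]
        calc a U * a p ≤ a U * 1 :=
              mul_le_mul_of_nonneg_left (hle p hp) (AbsoluteValue.nonneg _ _)
          _ < r := by rwa [mul_one]
      exact (ha _ _).trans_lt (max_lt h1 h2)

variable {k D : Type} [Field k] [GFF k] [DivisionRing D] [StarRing D] [Algebra k D] {N : ℕ}

/-- **Near four**, in the algebra `D`. -/
theorem near_two_abs (hst : ∀ (c : k) (x : D), star (c • x) = c • star x)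
    (B : Basis (Fin N) k D) (v : Place k) {δ : k} {i : D}
    (hi : i * i = algebraMap k D δ) (J : D) {ε : ℝ} (hε : 0 < ε) :
    ∃ ε' : ℝ, 0 < ε' ∧ ∀ (X : D) (p u : k), v.abv (p - 1) < ε' →
      v.abv u < ε' → na B v.abv (X - 1) < ε' → ∀ M : ℕ,
        na B v.abv (((p • (1 : D) + u • i) ^ M * X + 1) * J *
          star ((p • (1 : D) + u • i) ^ M * X + 1) - (4 : k) • J) < ε := by
  let σ : D →ₗ[k] D := { toFun := star, map_add' := star_add, map_smul' := hst }
  have hLU : LU B v.abv fun y : Fin 1 → D => (y 0 + 1) * J * σ (y 0 + 1) :=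
    (((LU.proj 0).add (LU.const 1)).mul (LU.const J)).mul
      (((LU.proj 0).add (LU.const 1)).lin σ)
  obtain ⟨-, -, hLU⟩ := hLU (na B v.abv (1 : D) + 1)
  obtain ⟨η, hη, hLU⟩ := hLU ε hε
  obtain ⟨Cm, hCm, hmul⟩ := na_mul B v.abv
  set a := v.abv with ha
  have hn1 := na_nonneg B a (1 : D)
  have hni := na_nonneg B a i
  have hδ0 := AbsoluteValue.nonneg a δ
  obtain ⟨η1, hη1⟩ : ∃ η1, η1 = min η 1 := ⟨_, rfl⟩
  have hη10 : 0 < η1 := by rw [hη1]; positivity
  obtain ⟨r, hr⟩ : ∃ r : ℝ, r = min (min 1 (1 / (a δ + 1)))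
      (η1 / (2 * (na B a (1 : D) + na B a i + 1))) := ⟨_, rfl⟩
  have hr0 : 0 < r := by rw [hr]; positivity
  have hz1 : r ≤ 1 := by rw [hr]; exact (min_le_left _ _).trans (min_le_left _ _)
  have hz2 : r ≤ 1 / (a δ + 1) := by rw [hr]; exact (min_le_left _ _).trans (min_le_right _ _)
  have hz3 : r ≤ η1 / (2 * (na B a (1 : D) + na B a i + 1)) := by rw [hr]; exact min_le_right _ _
  rw [le_div_iff₀ (by positivity)] at hz2
  rw [le_div_iff₀ (by positivity)] at hz3
  have hzδ : a δ * r ≤ 1 := by nlinarith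
  refine ⟨min r (η1 / (2 * Cm * (na B a (1 : D) + 1))), by positivity, fun X p u hp hu hX M => ?_⟩
  have hp' : a (p - 1) < r := hp.trans_le (min_le_left _ _)
  have hu' : a u < r := hu.trans_le (min_le_left _ _)
  obtain ⟨P, U, hPU, hP, hU⟩ := pow_near (D := D) v.nonarch hi hr0 hz1 hzδ hp' hu' M
  rw [hPU]
  obtain ⟨y, hy⟩ : ∃ y : D, y = P • (1 : D) + U • i := ⟨_, rfl⟩
  rw [← hy]
  have hy1 : na B a (y - 1) < η1 / 2 := by
    have e : y - 1 = (P - 1) • (1 : D) + U • i := by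
      rw [hy, sub_smul, one_smul]
      abel
    rw [e]
    refine (na_add_le B a _ _).trans_lt ?_
    rw [na_smul, na_smul]
    have h1 : a (P - 1) * na B a (1 : D) ≤ r * na B a (1 : D) :=
      mul_le_mul_of_nonneg_right hP.le hn1
    have h2 : a U * na B a i ≤ r * na B a i := mul_le_mul_of_nonneg_right hU.le hni
    nlinarith
  have hy2 : na B a y ≤ na B a (1 : D) + 1 := by
    have e : y = 1 + (y - 1) := by abel
    rw [e]
    refine (na_add_le B a _ _).trans ?_
    have h3 : η1 ≤ 1 := by rw [hη1]; exact min_le_right _ _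
    linarith
  have hX' : na B a (X - 1) < η1 / (2 * Cm * (na B a (1 : D) + 1)) := hX.trans_le (min_le_right _ _)
  rw [lt_div_iff₀ (by positivity)] at hX'
  have hY : na B a (y * X - 1) < η1 := by
    have e : y * X - 1 = y * (X - 1) + (y - 1) := by
      rw [mul_sub, mul_one]
      abel
    rw [e]
    refine (na_add_le B a _ _).trans_lt ?_
    have h1 := hmul y (X - 1)
    have h2 : Cm * na B a y * na B a (X - 1) ≤ Cm * (na B a (1 : D) + 1) * na B a (X - 1) :=
      mul_le_mul_of_nonneg_right (mul_le_mul_of_nonneg_left hy2 (by linarith))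
        (na_nonneg B a _)
    have h3 : Cm * (na B a (1 : D) + 1) * na B a (X - 1) < η1 / 2 := by
      have e2 : na B a (X - 1) * (2 * Cm * (na B a (1 : D) + 1)) =
          2 * (Cm * (na B a (1 : D) + 1) * na B a (X - 1)) := by ring
      linarith
    linarith
  have hη' : η1 ≤ η := by rw [hη1]; exact min_le_left _ _
  have hη'' : η1 ≤ 1 := by rw [hη1]; exact min_le_right _ _
  have h1 := hLU ![y * X] ![1]
    (by
      intro j
      fin_cases j
      change na B a (y * X) ≤ _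
      have e : y * X = 1 + (y * X - 1) := by abel
      rw [e]
      refine (na_add_le B a _ _).trans ?_
      linarith)
    (by
      intro j
      fin_cases j
      change na B a (1 : D) ≤ _
      linarith)
    (by
      intro j
      fin_cases j
      exact hY.trans_le hη')
  have e4 : ((1 : D) + 1) * J * σ (1 + 1) = (4 : k) • J := by
    have e5 : σ ((1 : D) + 1) = 1 + 1 := by
      change star ((1 : D) + 1) = 1 + 1
      rw [star_add, star_one]
    rw [e5, Algebra.smul_def, map_ofNat]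
    noncomm_ring
  have h2 : na B a ((y * X + 1) * J * σ (y * X + 1) - ((1 : D) + 1) * J * σ (1 + 1)) < ε := h1
  rw [e4] at h2
  exact h2

end abs

section frm

variable {k K D L K' C : Type} [Field k] [Field K] [StarRing K]
  [DivisionRing D] [StarRing D] [Algebra k K] [Algebra k D] [Algebra K D] [IsScalarTower k K D]
  [Field L] [Algebra k L] [Field K'] [StarRing K']
  [Algebra K K'] [DivisionRing C] [StarRing C] [Algebra L K'] [Algebra L C] [Algebra K' C]
  [IsScalarTower L K' C] {d : kˣ} {s : K} {a : kˣ} {t : D} {T : L} {ι : C →+* D}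

/-- **Near four**, in the letters of the centralizer. -/
theorem near_two [GFF k] {N : ℕ} (hS : SetF k K D d s) (h : IsCentF k K D L K' C t a T ι)
    (B : Basis (Fin N) k D) (v : Place k) (j : D) {ε : ℝ} (hε : 0 < ε) :
    ∃ ε' : ℝ, 0 < ε' ∧ ∀ (x : C) (p u : k), v.abv (p - 1) < ε' →
      v.abv u < ε' → na B v.abv (ι x - 1) < ε' → ∀ M : ℕ,
        na B v.abv
          (ι (algebraMap K' C ((kk k K K' p + kk k K K' u * om K' s T) ^ M) * x + 1) * j ^ 3 *
            star (ι (algebraMap K' C ((kk k K K' p + kk k K K' u * om K' s T) ^ M) * x + 1)) -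
            (4 : k) • j ^ 3) < ε := by
  have hkk : ∀ c : k, ι (algebraMap K' C (kk k K K' c)) = c • (1 : D) := by
    intro c
    rw [iota_kk h, Algebra.algebraMap_eq_smul_one]
  obtain ⟨i, hid⟩ : ∃ i : D, i = ι (algebraMap K' C (om K' s T)) := ⟨_, rfl⟩
  have hi : i * i = algebraMap k D (a * d : kˣ) := by
    rw [hid, ← map_mul, ← map_mul, om_sq hS h, hkk, Units.val_mul,
      Algebra.algebraMap_eq_smul_one]
  obtain ⟨ε', hε', hn⟩ := near_two_abs hS.star_smulk B v hi (j ^ 3) hε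
  refine ⟨ε', hε', fun x p u hp hu hx M => ?_⟩
  have e : ι (algebraMap K' C ((kk k K K' p + kk k K K' u * om K' s T) ^ M) * x + 1) =
      (p • (1 : D) + u • i) ^ M * ι x + 1 := by
    rw [map_add, map_mul, map_one, map_pow, map_pow, map_add, map_add, map_mul, map_mul, hkk, hkk,
      ← hid, smul_mul_assoc, one_mul]
  rw [e]
  exact hn (ι x) p u hp hu hx M

theorem HasE.ne {CC : Cub K' C} {w : D} {γ : C} {e1 e2 e3 : k}
    (he : HasE k K CC ι w γ e1 e2 e3) (hw : w ≠ 0) : e3 ≠ 0 := by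
  rintro rfl
  have h4 := he.N
  rw [map_zero] at h4
  have h5 : γ = 0 := CC.N_eq_zero.mp h4
  have h6 := he.sq
  rw [h5, map_zero] at h6
  exact mul_ne_zero hw hw h6.symm

/-- A square with scalar root. -/
theorem HasE.center {CC : Cub K' C} {w : D} {γ : C} {e1 e2 e3 : k}
    (he : HasE k K CC ι w γ e1 e2 e3) {c : K'} (hc : algebraMap K' C c = γ) :
    e1 ^ 2 - 3 * e2 = 0 ∧ e1 * e2 - 9 * e3 = 0 := by
  obtain ⟨h1, h2, h3⟩ := cub_scalar CC c
  rw [hc, he.T] at h1
  rw [hc, he.S] at h2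
  rw [hc, he.N] at h3
  constructor
  · apply (kk k K K').injective
    rw [map_sub, map_mul, map_pow, map_ofNat, map_zero, h1, h2]
    ring
  · apply (kk k K K').injective
    rw [map_sub, map_mul, map_mul, map_ofNat, map_zero, h1, h2, h3]
    ring

theorem HasE.center' (h3 : (3 : k) ≠ 0) {CC : Cub K' C} {w : D} {γ : C} {e1 e2 e3 : k}
    (he : HasE k K CC ι w γ e1 e2 e3) (hc : ∀ c : K', algebraMap K' C c ≠ γ) :
    ∃ g : k, g ≠ 0 ∧ (g = e1 ^ 2 - 3 * e2 ∨ g = e1 * e2 - 9 * e3) := by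
  have h3' : (3 : K') ≠ 0 := three_neK (K := K') (k := K) (three_neK h3)
  by_contra hg
  push Not at hg
  have g1 : e1 ^ 2 - 3 * e2 = 0 := by
    by_contra h
    exact (hg _ h).1 rfl
  have g2 : e1 * e2 - 9 * e3 = 0 := by
    by_contra h
    exact (hg _ h).2 rfl
  obtain ⟨c, hc'⟩ := cube_center h3' CC (x := γ) (by
    rw [he.T, he.S]
    have := congrArg (kk k K K') g1
    rw [map_sub, map_mul, map_pow, map_ofNat, map_zero] at this
    linear_combination this) (by
    rw [he.T, he.S, he.N]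
    have := congrArg (kk k K K') g2
    rw [map_sub, map_mul, map_mul, map_ofNat, map_zero] at this
    linear_combination this)
  exact hc c hc'

theorem theta_unique (h : IsCentF k K D L K' C t a T ι) {τ τ' : K' →+* K'}
    (h1 : ∀ c : K, τ (algebraMap K K' c) = algebraMap K K' c)
    (h2 : τ (algebraMap L K' T) = -algebraMap L K' T)
    (h1' : ∀ c : K, τ' (algebraMap K K' c) = algebraMap K K' c)
    (h2' : τ' (algebraMap L K' T) = -algebraMap L K' T) : τ' = τ := by
  ext c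
  obtain ⟨p, q, rfl⟩ := h.repK c
  rw [map_add, map_mul, map_add, map_mul, h1, h1, h1', h1', h2, h2']

/-- The bad places of the base element. -/
theorem exists_bad [GFF k] (δ : kˣ) {e1 e2 e3 g : k} (he3 : e3 ≠ 0) (hg0 : g ≠ 0)
    (hg : g = e1 ^ 2 - 3 * e2 ∨ g = e1 * e2 - 9 * e3) :
    ∃ S : Set (Place k), S.Finite ∧ ∀ v ∉ S, v.abv (δ : k) = 1 ∧ vr v e1 ≤ 1 ∧ vr v e2 ≤ 1 ∧
      vr v e3 = 1 ∧ ¬ (vr v (e1 ^ 2 - 3 * e2) < 1 ∧ vr v (e1 * e2 - 9 * e3) < 1) := by
  have hle : ∀ e : k, {v : Place k | ¬ vr v e ≤ 1}.Finite := by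
    intro e
    rcases eq_or_ne e 0 with rfl | he
    · refine Set.Finite.subset Set.finite_empty ?_
      intro v hv
      refine (hv ?_).elim
      rw [map_zero]
      exact zero_le_one
    · refine (place_finite he).subset ?_
      intro v hv h1
      exact hv (vr_eq_one.2 h1).le
  refine ⟨(((({v | v.abv (δ : k) ≠ 1} ∪
    {v | ¬ vr v e1 ≤ 1}) ∪ {v | ¬ vr v e2 ≤ 1}) ∪
    {v | v.abv e3 ≠ 1}) ∪ {v | v.abv g ≠ 1}),
    ((((place_finite δ.ne_zero).union
      (hle e1)).union (hle e2)).union (place_finite he3)).union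
      (place_finite hg0), ?_⟩
  intro v hv
  simp only [Set.mem_union, Set.mem_ofPred_eq, not_or, not_not] at hv
  obtain ⟨⟨⟨⟨a2, a3⟩, a4⟩, a5⟩, a6⟩ := hv
  refine ⟨a2, a3, a4, vr_eq_one.2 a5, ?_⟩
  rintro ⟨b1, b2⟩
  rcases hg with rfl | rfl
  · exact b1.ne (vr_eq_one.2 a6)
  · exact b2.ne (vr_eq_one.2 a6)

variable (hS : SetF k K D d s) (hSC : SetF L K' C (incF k L d) (algebraMap K K' s))
  (h : IsCentF k K D L K' C t a T ι) (hdC : finrank K' C = 3 ^ 2) (ht : t ∈ XaF D a)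
  (CC : Cub K' C)

include hS hSC h hdC ht

omit hdC ht hSC in
/-- The product with the conjugate. -/
theorem nu_mul {p u : k} (hpu : p ^ 2 - (a * d : kˣ) * u ^ 2 = 1) :
    (kk k K K' p + kk k K K' u * om K' s T) * (kk k K K' p - kk k K K' u * om K' s T) = 1 := by
  have h1 := om_sq hS h
  have h2 := congrArg (kk k K K') hpu
  rw [map_sub, map_mul, map_pow, map_pow, map_one, Units.val_mul] at h2
  linear_combination h2 - (kk k K K' u) ^ 2 * h1

/-- The second element of the pencil. -/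
theorem exists_j2 {j1 : D} (hj0 : j1 ≠ 0) (hj : Wt t j1) {γ1 : C} {e1 e2 e3 : k}
    (he : HasE k K CC ι j1 γ1 e1 e2 e3) {x : C} {p u : k}
    (hpu : p ^ 2 - (a * d : kˣ) * u ^ 2 = 1)
    (hN : CC.N x = kk k K K' p + kk k K K' u * om K' s T)
    {P : Set (Place K')} (hP : P.Finite) :
    ∃ (M : ℕ) (n : K') (j2 : D), j2 =
        ι (algebraMap K' C ((kk k K K' p + kk k K K' u * om K' s T) ^ M) * x + 1) * j1 ^ 3 *
          star (ι (algebraMap K' C ((kk k K K' p + kk k K K' u * om K' s T) ^ M) * x + 1)) ∧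
      Wt t j2 ∧ (∀ (γ2 : C) (f1 f2 f3 : k), HasE k K CC ι j2 γ2 f1 f2 f3 →
        kk k K K' f3 = n * kk k K K' e3 ^ 3) ∧
      ∀ V ∈ P, (vr V (kk k K K' p + kk k K K' u * om K' s T) < 1 →
        vr V (n * (kk k K K' p + kk k K K' u * om K' s T) ^ (2 * (3 * M + 1)) - 1) < 1) ∧
        (1 < vr V (kk k K K' p + kk k K K' u * om K' s T) →
        vr V (n / (kk k K K' p + kk k K K' u * om K' s T) ^ (2 * (3 * M + 1)) - 1)
          < 1) := by
  have hmul := nu_mul hS h hpu
  set ν := kk k K K' p + kk k K K' u * om K' s T with hν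
  obtain ⟨θ, τ, hθ, hθτ, hτK, hτT⟩ := exists_theta h hj0 hj.an
  have hν0 : ν ≠ 0 := left_ne_zero_of_mul_eq_one hmul
  have hν' : kk k K K' p - kk k K K' u * om K' s T = ν⁻¹ := eq_inv_of_mul_eq_one_right hmul
  have hkτ : ∀ c : k, τ (kk k K K' c) = kk k K K' c := fun c => hτK _
  have hkσ : ∀ c : k, star (kk k K K' c) = kk k K K' c := by
    intro c
    rw [kk, RingHom.comp_apply, starK hS hSC h]
    congr 1
    exact (hS.fix _).mpr ⟨c, rfl⟩
  have hτo : τ (om K' s T) = -om K' s T := by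
    rw [om, map_mul, hτK, hτT, mul_neg]
  have hσo : star (om K' s T) = -om K' s T := by
    rw [om, star_mul, starK hS hSC h, starT hS hSC h ht, hS.star_s, map_neg]
    ring
  have hσ : starRingEnd K' ν = ν⁻¹ := by
    rw [starRingEnd_apply, hν, star_add, star_mul, hkσ, hkσ, hσo, ← hν, ← hν']
    ring
  have hτ : τ ν = ν⁻¹ := by
    rw [hν, map_add, map_mul, hkτ, hkτ, hτo, ← hν, ← hν']
    ring
  obtain ⟨M, hM⟩ := exists_M (starRingEnd K') τ (CC.T x) (CC.S x) hν0 hσ hτ hP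
  refine ⟨M, NN (starRingEnd K') τ ν (CC.T x) (CC.S x) M, _, rfl, ?_, ?_, hM⟩
  · exact hj.cube.congr (h.comm _) ht.1
  · intro γ2 f1 f2 f3 hf
    obtain ⟨γ', g1, g2, g3, hg⟩ := exists_E hS hSC h hdC ht CC (pow_ne_zero 3 hj0) hj.cube
    have hg3 := hasE_cube CC he hg h.inj
    obtain ⟨τ', h1, h2, h3⟩ := e3_congr hS hSC h hdC ht CC (pow_ne_zero 3 hj0) hj.cube _ hg hf
    have hττ : τ' = τ := theta_unique h hτK hτT h1 h2
    subst hττ
    have hNw : CC.N (algebraMap K' C (ν ^ M) * x + 1) = nn ν (CC.T x) (CC.S x) M := by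
      rw [← Algebra.smul_def, N_smul_add_one, hN, nn]
      ring
    rw [h3, hNw, hg3, NN, map_pow]
    rfl

/-- **The element of the pencil.** -/
theorem exists_T_j [GFF k] (h3 : (3 : k) ≠ 0) {tr : D →ₗ[k] k}
    (htr : ∀ (x : C) (e : k), CC.T x = kk k K K' e → tr (ι x) = e) {j1 j2 : D}
    (hj1 : Wt t j1) (hj2 : Wt t j2) {γ1 γ2 : C} {e1 e2 e3 f1 f2 f3 : k}
    (he : HasE k K CC ι j1 γ1 e1 e2 e3) (hf : HasE k K CC ι j2 γ2 f1 f2 f3)
    (hj20 : j2 ≠ 0) (hcop : Cop tr j1 j2) {S Sg : Set (Place k)}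
    (hSf : S.Finite) (hSgf : Sg.Finite)
    (hE : ∀ v ∉ S, vr v e1 ≤ 1 ∧ vr v e2 ≤ 1 ∧ vr v e3 = 1 ∧
      ¬ (vr v (e1 ^ 2 - 3 * e2) < 1 ∧ vr v (e1 * e2 - 9 * e3) < 1)) :
    ∃ (c : k) (j : D) (γ : C) (a1 a2 a3 : k), c ≠ 0 ∧ j ≠ 0 ∧ Wt t j ∧
      HasE k K CC ι j γ a1 a2 a3 ∧ (∀ c : K', algebraMap K' C c ≠ γ) ∧
      (∀ v ∈ Sg, vr v (a3 / (c ^ 6 * f3) - 1) < 1) ∧
      ∀ v, v ∉ S → v ∉ Sg → ∃ r : k, r ≠ 0 ∧
        vr v (a1 / r ^ 2) ≤ 1 ∧ vr v (a2 / r ^ 4) ≤ 1 ∧ vr v (a3 / r ^ 6) ≤ 1 ∧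
        ¬ (vr v ((a1 / r ^ 2) ^ 2 - 3 * (a2 / r ^ 4)) < 1 ∧
          vr v ((a1 / r ^ 2) * (a2 / r ^ 4) - 9 * (a3 / r ^ 6)) < 1) ∧
        ¬ (vr v (a2 / r ^ 4) < 1 ∧ vr v (a3 / r ^ 6) < 1) := by
  have h2 := hS.two_ne
  have hf3 := hf.ne hj20
  obtain ⟨c1, c2⟩ := cop_of_Cop hcop
  obtain ⟨z1, z2, z3⟩ := PE_eval CC h2 h3 htr (x := j1) (y := j2) (c := 0)
    (by rw [zero_smul, add_zero]; exact he)
  have hz := (PE_eval CC h2 h3 htr (x := j2) (y := j1) (c := 0)
    (by rw [zero_smul, add_zero]; exact hf)).2.2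
  -- the closeness at the places where the parameter is large
  have hδ : ∀ v : Place k, ∃ δ : ℝ≥0, δ ≠ 0 ∧ ∀ T : k, vr v T < δ →
      vr v (f3⁻¹ * (PE3 tr j2 j1).eval T - 1) < 1 := by
    intro v
    obtain ⟨δ, h1, -, h2⟩ := H74.ExT.exists_near_zero (vr v) (Polynomial.C f3⁻¹ * PE3 tr j2 j1)
    refine ⟨δ, h1, fun T hT => ?_⟩
    have h3 := h2 T hT
    rwa [eval_mul, eval_mul, eval_C, eval_C, hz, inv_mul_cancel₀ hf3] at h3
  choose δ hδ0 hδ using hδ
  obtain ⟨c, hc0, hcS, hcE⟩ := exists_T (PE1 tr j1 j2) (PE2 tr j1 j2) (PE3 tr j1 j2)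
    (PE1_natDegree _ _ _) (PE2_natDegree _ _ _) (PE3_natDegree _ _ _) hcop.1 hcop.2
    hSf hSgf (by rw [z1, z2, z3]; exact hE) (fun v => (δ v)⁻¹)
  have hW : Wt t (j1 + c • j2) := hj1.add (hj2.smul hS.star_smulk c)
  have hj0 : j1 + c • j2 ≠ 0 := by
    intro h0
    obtain ⟨-, g2, g3⟩ := PE_zero tr c h0
    obtain ⟨A, A', hA⟩ := c2
    have hA' := congrArg (eval c) hA
    rw [eval_add, eval_mul, eval_mul, g2, g3, eval_one, mul_zero, mul_zero, add_zero] at hA'
    exact zero_ne_one hA'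
  obtain ⟨γ, a1, a2, a3, ha⟩ := exists_E hS hSC h hdC ht CC hj0 hW
  obtain ⟨E1, E2, E3⟩ := PE_eval CC h2 h3 htr ha
  refine ⟨c, j1 + c • j2, γ, a1, a2, a3, hc0, hj0, hW, ha, ?_, ?_, ?_⟩
  · intro b hb
    obtain ⟨g1, g2⟩ := ha.center hb
    obtain ⟨A, A', hA⟩ := c1
    have hA' := congrArg (eval c) hA
    simp only [eval_add, eval_mul, eval_sub, eval_pow, eval_ofNat, E1, E2, E3, g1, g2, eval_one,
      mul_zero, add_zero] at hA'
    exact zero_ne_one hA'
  · intro v hv
    have h1 : vr v c⁻¹ < δ v := by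
      rw [map_inv₀]
      exact inv_lt_of_inv_lt₀ (zero_lt_iff.mpr (hδ0 v)) (hcS v hv)
    have h2 := hδ v _ h1
    have h3 := PE3_flip tr j1 j2 hc0
    rw [E3] at h3
    have h4 : a3 / (c ^ 6 * f3) = f3⁻¹ * (PE3 tr j2 j1).eval c⁻¹ := by
      rw [h3]
      field_simp
    rw [h4]
    exact h2
  · intro v hv hv'
    have h5 := hcE v hv hv'
    rw [E1, E2, E3] at h5
    exact h5

end frm

end Vale.Agent.P011.H872.FF
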